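import Vale.Agent.P139.H741.Match
import Vale.Agent.P139.H311.Match

/-!
# The interface of helper311's key lemma: `CoefBd`, the phase at the outer end, `GOut` (helper741)
-/

open scoped ContDiff
open Complex MeasureTheory Set Filter Topology Vale.Agent.P139.BU

namespace Vale.Agent.P139.H741

theorem PData.of_smooth {d : ℕ} {B : Set (ℝ × ℝ)} {m0 : ℕ} {w R : ℕ → ℝ} {q : ℕ → ℝ → ℂ}
    (U : UP d B m0 w R q) {m : ℕ} (hm : m0 ≤ m) {h : ℝ → ℂ} (h1 : ContDiff ℝ ∞ h)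
    (h2 : ∀ r, q m r = h (r ^ 2)) : PData (q m) h := by
  refine ⟨by exact_mod_cast contDiff_infty.mp h1 2, ?_, h2⟩
  intro z hz
  have e := h2 (Real.sqrt z)
  rw [Real.sq_sqrt hz] at e
  rw [← e]
  exact U.ne m hm _

/-- Coefficient bounds in helper311's form. -/
theorem UPg_coef {d : ℕ} {B : Set (ℝ × ℝ)} {m0 : ℕ} {w R : ℕ → ℝ} {q : ℕ → ℝ → ℂ}
    (U : UP d B m0 w R q) {n l : ℕ} (_hn : n + 1 = d + 2 * l) (L0 : ℝ) :
    ∃ C > 0, ∃ c0 > 0, ∃ ηs > 0, ∀ ε > 0, ∀ η, 0 < η → η ≤ ηs → ∃ m1, ∀ m, m1 ≤ m →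
      ∀ lam : ℂ, ‖lam‖ ≤ L0 → ∀ h, ContDiff ℝ ∞ h → (∀ r, q m r = h (r ^ 2)) →
      H311.CoefBd (R m + η) (gP m h) (gV (w m) h) (gw h) (gdel n h)
        (lam + aa m - (d : ℂ) / 4) C c0 ε η := by
  obtain ⟨R1, hR1, R2, hR⟩ := U.Rbd
  obtain ⟨X, hX⟩ : ∃ X : ℝ, X = max 1 R2 := ⟨_, rfl⟩
  have hX1 : 1 ≤ X := by rw [hX]; exact le_max_left _ _
  obtain ⟨C1, hC1, m2, hGB⟩ := exists_GB U n (b := X + 1) (by linarith)
  obtain ⟨c0, hc0, hcore⟩ := core_small U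
  obtain ⟨C, hC⟩ : ∃ C : ℝ, C = max C1 (max 0 L0 + 1 + (d : ℝ)) := ⟨_, rfl⟩
  have hCC1 : C1 ≤ C := by rw [hC]; exact le_max_left _ _
  have hCμ : max 0 L0 + 1 + (d : ℝ) ≤ C := by rw [hC]; exact le_max_right _ _
  have hC0 : 0 < C := lt_of_lt_of_le hC1 hCC1
  refine ⟨C, hC0, c0, hc0, min 1 (R1 / 6), lt_min one_pos (by linarith), ?_⟩
  intro ε hε η hη hηle
  have b2 : η ≤ 1 := hηle.trans (min_le_left _ _)
  have b4 : η ≤ R1 / 6 := hηle.trans (min_le_right _ _)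
  obtain ⟨m4, hco⟩ := hcore η hη ε hε
  refine ⟨max (max m0 m2) m4, ?_⟩
  intro m hm lam hlam h h1 h2
  have k0 : m0 ≤ m := ((le_max_left _ _).trans (le_max_left _ _)).trans hm
  have k2 : m2 ≤ m := ((le_max_right _ _).trans (le_max_left _ _)).trans hm
  have k4 : m4 ≤ m := (le_max_right _ _).trans hm
  have hm1 : 1 ≤ m := U.m0_pos.trans k0
  have hRm := hR m k0
  have hRX : R m ≤ X := by rw [hX]; exact hRm.2.trans (le_max_right _ _)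
  have H : PData (q m) h := PData.of_smooth U k0 h1 h2
  have hco' := hco m k4 h H
  have G : GB n m (w m) h (R m + η) C := (hGB m k2 h H).mono (by linarith) hCC1
  exact ⟨hC0, hc0, hε.le, hη, by linarith [hRm.1], G.V, G.P0, G.P1, G.w, G.δ,
    (mu_bound hm1 hlam).trans hCμ, fun r hr => (hco' r ⟨hr.1, by linarith [hr.2]⟩).1,
    fun r hr => (hco' r ⟨hr.1, by linarith [hr.2]⟩).2⟩

/-- The phase at the outer end. -/
theorem UPg_phase {d : ℕ} {B : Set (ℝ × ℝ)} {m0 : ℕ} {w R : ℕ → ℝ} {q : ℕ → ℝ → ℂ}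
    (U : UP d B m0 w R q) :
    ∀ ε > 0, ∃ η0 > 0, ∃ m1, ∀ η, 0 < η → η ≤ η0 → ∀ m, m1 ≤ m →
      ∀ h, ContDiff ℝ ∞ h → (∀ r, q m r = h (r ^ 2)) →
      |th1 h (R m + η)| ≤ ε ∧ ‖1 - ep h (R m + η)‖ ≤ ε := by
  intro ε hε
  obtain ⟨η0, hη0, m1, hph⟩ := phase_small U ε hε
  refine ⟨η0, hη0, max m0 m1, ?_⟩
  intro η hη hηle m hm h h1 h2
  have k0 : m0 ≤ m := (le_max_left _ _).trans hm
  have H : PData (q m) h := PData.of_smooth U k0 h1 h2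
  have hR := U.Rpos m k0
  have h3 := hph m ((le_max_right _ _).trans hm) h H (R m + η) ⟨by linarith, by linarith⟩
  refine ⟨h3.1, ?_⟩
  rw [norm_sub_rev]
  exact (norm_ep_sub_one h _).trans h3.2

theorem conj_ep (h : ℝ → ℂ) (r : ℝ) : (starRingEnd ℂ) (ep h r) = em h r := by
  unfold ep em
  rw [← Complex.exp_conj, map_mul, Complex.conj_I, Complex.conj_ofReal, neg_mul]

/-- The gauge transformation in helper311's form. -/
theorem gout {d m l n : ℕ} {fr R2 : ℝ} {lam : ℂ} {h u v e1 e2 : ℝ → ℂ}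
    (hh : ContDiff ℝ 2 h) (hne : ∀ z : ℝ, 0 ≤ z → h z ≠ 0)
    (hn : n + 1 = d + 2 * l) (hn1 : 1 ≤ n) (hm : 1 ≤ m) (hR : 0 < R2)
    (hu : ContDiff ℝ 2 u) (hv : ContDiff ℝ 2 v)
    (he1 : ContinuousOn e1 (Icc 0 R2)) (he2 : ContinuousOn e2 (Icc 0 R2))
    (hE : ∀ r ∈ Ioo 0 R2, DEq d m l fr lam h u v e1 e2 r) :
    H311.GOut n R2 (2 * m + 1) (gP m h) (gV fr h) (gw h) (gdel n h)
      (lam + aa m - (d : ℂ) / 4) (ep h) (th1 h) (ev0 u) (ev0 v) (ev1 u) (ev1 v) e1 e2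
      (gs h u v) (gt h u v) (gs1 h u v) (gt1 h u v) (gS0 h e1 e2) (gT0 h e1 e2) where
  sys := gsys hh hne hn hn1 hm hR hu hv he1 he2 hE
  zn := fun r _ => norm_ep h r
  hs := fun r _ => by rw [conj_ep]; rfl
  ht := fun r _ => by rw [conj_ep]; rfl
  hs1 := by rw [conj_ep]; rfl
  ht1 := by rw [conj_ep]; rfl
  hS0 := fun r _ => by rw [conj_ep]; rfl
  hT0 := fun r _ => by rw [conj_ep]; rfl

/-- The gauge transformation in helper311's form, from the radial operators. -/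
theorem gout_of_RL {d m l n : ℕ} {fr R2 : ℝ} {lam : ℂ} {h u v e1 e2 q F G : ℝ → ℂ}
    (hh : ContDiff ℝ 2 h) (hne : ∀ z : ℝ, 0 ≤ z → h z ≠ 0)
    (hn : n + 1 = d + 2 * l) (hn1 : 1 ≤ n) (hm : 1 ≤ m) (hR : 0 < R2)
    (hu : ContDiff ℝ 2 u) (hv : ContDiff ℝ 2 v)
    (he1 : ContinuousOn e1 (Icc 0 R2)) (he2 : ContinuousOn e2 (Icc 0 R2))
    (hq : ∀ r : ℝ, 0 < r → q r = h (r ^ 2))
    (hF : ∀ r : ℝ, 0 < r → F r = (r : ℂ) ^ l * u (r ^ 2))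
    (hG : ∀ r : ℝ, 0 < r → G r = (r : ℂ) ^ l * v (r ^ 2))
    (E1 : ∀ r ∈ Ioo 0 R2, RL1 d m l fr q F G r = lam * F r + (r : ℂ) ^ l * e1 r)
    (E2 : ∀ r ∈ Ioo 0 R2, RL2 d m l fr q F G r = lam * G r + (r : ℂ) ^ l * e2 r) :
    H311.GOut n R2 (2 * m + 1) (gP m h) (gV fr h) (gw h) (gdel n h)
      (lam + aa m - (d : ℂ) / 4) (ep h) (th1 h) (ev0 u) (ev0 v) (ev1 u) (ev1 v) e1 e2
      (gs h u v) (gt h u v) (gs1 h u v) (gt1 h u v) (gS0 h e1 e2) (gT0 h e1 e2) :=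
  gout hh hne hn hn1 hm hR hu hv he1 he2
    (fun r hr => dEq_of_RL hu hv hF hG hr.1 (hq r hr.1) (E1 r hr) (E2 r hr))

end Vale.Agent.P139.H741
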