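import Vale.Agent.P139.H741.Phase
import Vale.Agent.P139.H311.CoreD

/-!
# [SB2] Gauge lemma (helper741)

A radial pair `F r = r^l u(r²)`, `G r = r^l v(r²)` solving the linearised system (with sources)
around the profile `q r = h (r²)` gives a solution of helper311's gauged system `GSys`.
-/

open Complex MeasureTheory Set Vale.Agent.P139.BU

namespace Vale.Agent.P139.H741

/-- the weight `w = 1/2 + 2 θ'/r`. -/
noncomputable def gw (h : ℝ → ℂ) (r : ℝ) : ℝ := 1 / 2 + 4 * om h r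

/-- `δ = (n+1)/4 + n θ'/r + θ''`. -/
noncomputable def gdel (n : ℕ) (h : ℝ → ℂ) (r : ℝ) : ℝ :=
  ((n : ℝ) + 1) / 4 + 2 * n * om h r + th2 h r

/-- the potential `P = |q|^{2m}`. -/
noncomputable def gP (m : ℕ) (h : ℝ → ℂ) (r : ℝ) : ℝ := ‖ev0 h r‖ ^ (2 * m)

/-- `V = θ'^2 + (r/2) θ' - ω`. -/
noncomputable def gV (ω : ℝ) (h : ℝ → ℂ) (r : ℝ) : ℝ := th1 h r ^ 2 + r / 2 * th1 h r - ω

/-- the gauge factor `exp (-i θ)`. -/
noncomputable def em (h : ℝ → ℂ) (r : ℝ) : ℂ := cexp (-(I * th h r))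

/-- the gauge factor `exp (i θ)`. -/
noncomputable def ep (h : ℝ → ℂ) (r : ℝ) : ℂ := cexp (I * th h r)

/-- `s = e^{-iθ} u + e^{iθ} v`. -/
noncomputable def gs (h u v : ℝ → ℂ) (r : ℝ) : ℂ := em h r * ev0 u r + ep h r * ev0 v r

/-- `t = e^{-iθ} u - e^{iθ} v`. -/
noncomputable def gt (h u v : ℝ → ℂ) (r : ℝ) : ℂ := em h r * ev0 u r - ep h r * ev0 v r

/-- derivative of `gs`. -/
noncomputable def gs1 (h u v : ℝ → ℂ) (r : ℝ) : ℂ :=
  em h r * (ev1 u r - I * th1 h r * ev0 u r) + ep h r * (ev1 v r + I * th1 h r * ev0 v r)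

/-- derivative of `gt`. -/
noncomputable def gt1 (h u v : ℝ → ℂ) (r : ℝ) : ℂ :=
  em h r * (ev1 u r - I * th1 h r * ev0 u r) - ep h r * (ev1 v r + I * th1 h r * ev0 v r)

/-- the source in the `s` equation. -/
noncomputable def gS0 (h e1 e2 : ℝ → ℂ) (r : ℝ) : ℂ := -I * (e1 r * em h r - e2 r * ep h r)

/-- the source in the `t` equation. -/
noncomputable def gT0 (h e1 e2 : ℝ → ℂ) (r : ℝ) : ℂ := -I * (e1 r * em h r + e2 r * ep h r)

section

variable {h : ℝ → ℂ} (hh : ContDiff ℝ 2 h) (hne : ∀ z : ℝ, 0 ≤ z → h z ≠ 0)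

theorem em_mul_ep (r : ℝ) : em h r * ep h r = 1 := by
  unfold em ep
  rw [← Complex.exp_add]
  simp

include hh hne

theorem hasDerivAt_ep (r : ℝ) : HasDerivAt (ep h) (ep h r * (I * th1 h r)) r := by
  have h1 := ((hasDerivAt_th hh hne r).ofReal_comp.const_mul I).cexp
  exact h1

theorem hasDerivAt_em (r : ℝ) : HasDerivAt (em h) (em h r * (-(I * th1 h r))) r := by
  have h1 := ((hasDerivAt_th hh hne r).ofReal_comp.const_mul I).neg.cexp
  exact h1

theorem continuous_ep : Continuous (ep h) :=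
  continuous_iff_continuousAt.mpr fun r => (hasDerivAt_ep hh hne r).continuousAt

theorem continuous_em : Continuous (em h) :=
  continuous_iff_continuousAt.mpr fun r => (hasDerivAt_em hh hne r).continuousAt

omit hh hne in
theorem W1_eq (m : ℕ) (r : ℝ) : W1 m (ev0 h r) = (gP m h r : ℂ) := by
  unfold W1 gP
  rw [Complex.mul_conj, Complex.normSq_eq_norm_sq]
  push_cast
  rw [← pow_mul]

theorem W2_eq {m : ℕ} (hm : 1 ≤ m) (r : ℝ) : W2 m (ev0 h r) = (gP m h r : ℂ) * ep h r ^ 2 := by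
  have hp : ev0 h r = (‖ev0 h r‖ : ℂ) * ep h r := ev0_polar hh hne r
  have hconj : (starRingEnd ℂ) (ev0 h r) = (‖ev0 h r‖ : ℂ) * em h r := by
    conv_lhs => rw [hp]
    unfold ep em
    rw [map_mul, Complex.conj_ofReal, ← Complex.exp_conj, map_mul, Complex.conj_I,
      Complex.conj_ofReal, neg_mul]
  unfold W2 gP
  rw [hconj]
  generalize ‖ev0 h r‖ = N at *
  rw [hp]
  obtain ⟨k, rfl⟩ : ∃ k, m = k + 1 := ⟨m - 1, by omega⟩
  have he := em_mul_ep (h := h) r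
  simp only [Nat.add_sub_cancel]
  rw [mul_pow, mul_pow]
  push_cast
  have e1 : ep h r ^ (k + 1 + 1) * em h r ^ k = ep h r ^ 2 := by
    have : ep h r ^ (k + 1 + 1) * em h r ^ k = (em h r * ep h r) ^ k * ep h r ^ 2 := by
      rw [mul_pow]
      ring
    rw [this, he, one_pow, one_mul]
  calc (N : ℂ) ^ (k + 1 + 1) * ep h r ^ (k + 1 + 1) * ((N : ℂ) ^ k * em h r ^ k)
      = (N : ℂ) ^ (k + 1 + 1) * (N : ℂ) ^ k * (ep h r ^ (k + 1 + 1) * em h r ^ k) := by ring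
    _ = _ := by
      rw [e1, ← pow_add]
      congr 2
      ring

theorem conj_W2_eq {m : ℕ} (hm : 1 ≤ m) (r : ℝ) :
    (starRingEnd ℂ) (W2 m (ev0 h r)) = (gP m h r : ℂ) * em h r ^ 2 := by
  rw [W2_eq hh hne hm, map_mul, map_pow, Complex.conj_ofReal]
  unfold ep em
  rw [← Complex.exp_conj, map_mul, Complex.conj_I, Complex.conj_ofReal, neg_mul]

theorem hasDerivAt_gs {u v : ℝ → ℂ} (hu : ContDiff ℝ 2 u) (hv : ContDiff ℝ 2 v) (r : ℝ) :
    HasDerivAt (gs h u v) (gs1 h u v r) r := by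
  have h1 := ((hasDerivAt_em hh hne r).mul (hasDerivAt_ev0 hu r)).add
    ((hasDerivAt_ep hh hne r).mul (hasDerivAt_ev0 hv r))
  refine h1.congr_deriv ?_
  unfold gs1
  ring

theorem hasDerivAt_gt {u v : ℝ → ℂ} (hu : ContDiff ℝ 2 u) (hv : ContDiff ℝ 2 v) (r : ℝ) :
    HasDerivAt (gt h u v) (gt1 h u v r) r := by
  have h1 := ((hasDerivAt_em hh hne r).mul (hasDerivAt_ev0 hu r)).sub
    ((hasDerivAt_ep hh hne r).mul (hasDerivAt_ev0 hv r))
  refine h1.congr_deriv ?_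
  unfold gt1
  ring

theorem hasDerivAt_gw (n : ℕ) (r : ℝ) :
    HasDerivAt (fun x : ℝ => x ^ (n + 1) * gw h x) (r ^ n * (2 * gdel n h r)) r := by
  have e : (fun x : ℝ => x ^ (n + 1) * gw h x) = fun x : ℝ => x ^ (n + 1) / 2 +
      2 * (x ^ n * th1 h x) := by
    ext x
    rw [th1_eq]
    unfold gw
    ring
  rw [e]
  have h1 : HasDerivAt (fun x : ℝ => x ^ (n + 1)) (((n : ℝ) + 1) * r ^ n) r := by
    simpa using hasDerivAt_pow (n + 1) r
  have h2 : HasDerivAt (fun x : ℝ => x ^ n) ((n : ℝ) * r ^ (n - 1)) r := hasDerivAt_pow n r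
  have h3 := (h1.div_const 2).add ((h2.mul (hasDerivAt_th1 hh hne r)).const_mul 2)
  refine h3.congr_deriv ?_
  unfold gdel
  rcases n with _ | k
  · rw [th1_eq]
    simp
    ring
  · rw [th1_eq]
    simp only [Nat.add_sub_cancel]
    push_cast
    ring

end

/-! ### Radial functions `r^l u(r²)` -/

theorem hasDerivAt_rpow_nat (l : ℕ) {r : ℝ} (hr : 0 < r) :
    HasDerivAt (fun x : ℝ => (x : ℂ) ^ l) ((r : ℂ) ^ l * (l / r)) r := by
  have h1 : HasDerivAt (fun x : ℝ => (x : ℂ)) 1 r := by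
    simpa using (hasDerivAt_id r).ofReal_comp
  have h2 := h1.pow l
  refine h2.congr_deriv ?_
  have hr0 : (r : ℂ) ≠ 0 := by exact_mod_cast hr.ne'
  rcases l with _ | k
  · simp
  · simp only [Nat.add_sub_cancel]
    field_simp
    ring

theorem hasDerivAt_rl {l : ℕ} {u : ℝ → ℂ} (hu : ContDiff ℝ 2 u) {r : ℝ} (hr : 0 < r) :
    HasDerivAt (fun x : ℝ => (x : ℂ) ^ l * ev0 u x)
      ((r : ℂ) ^ l * ((l / r) * ev0 u r + ev1 u r)) r := by
  refine ((hasDerivAt_rpow_nat l hr).mul (hasDerivAt_ev0 hu r)).congr_deriv ?_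
  ring

theorem hasDerivAt_rl1 {l : ℕ} {u : ℝ → ℂ} (hu : ContDiff ℝ 2 u) {r : ℝ} (hr : 0 < r) :
    HasDerivAt (fun x : ℝ => (x : ℂ) ^ l * ((l / x) * ev0 u x + ev1 u x))
      ((r : ℂ) ^ l * (((l : ℂ) * (l - 1) / (r : ℂ) ^ 2) * ev0 u r + (2 * l / r) * ev1 u r
        + ev2 u r)) r := by
  have hr0 : (r : ℂ) ≠ 0 := by exact_mod_cast hr.ne'
  have h1 : HasDerivAt (fun x : ℝ => (x : ℂ)) 1 r := by
    simpa using (hasDerivAt_id r).ofReal_comp
  have h2 : HasDerivAt (fun x : ℝ => (l : ℂ) / x) ((0 * (r : ℂ) - l * 1) / (r : ℂ) ^ 2) r :=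
    (hasDerivAt_const r (l : ℂ)).div h1 hr0
  have h3 := (hasDerivAt_rpow_nat l hr).mul ((h2.mul (hasDerivAt_ev0 hu r)).add (hasDerivAt_ev1 hu r))
  refine h3.congr_deriv ?_
  simp only [Pi.mul_apply, Pi.add_apply]
  field_simp
  ring

theorem deriv_radial {l : ℕ} {u F : ℝ → ℂ} (hu : ContDiff ℝ 2 u)
    (hF : ∀ r : ℝ, 0 < r → F r = (r : ℂ) ^ l * u (r ^ 2)) {r : ℝ} (hr : 0 < r) :
    deriv F r = (r : ℂ) ^ l * ((l / r) * ev0 u r + ev1 u r) := by
  have e : F =ᶠ[nhds r] fun x : ℝ => (x : ℂ) ^ l * ev0 u x := by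
    filter_upwards [lt_mem_nhds hr] with x hx
    exact hF x hx
  rw [e.deriv_eq, (hasDerivAt_rl hu hr).deriv]

theorem deriv2_radial {l : ℕ} {u F : ℝ → ℂ} (hu : ContDiff ℝ 2 u)
    (hF : ∀ r : ℝ, 0 < r → F r = (r : ℂ) ^ l * u (r ^ 2)) {r : ℝ} (hr : 0 < r) :
    deriv (deriv F) r = (r : ℂ) ^ l * (((l : ℂ) * (l - 1) / (r : ℂ) ^ 2) * ev0 u r
      + (2 * l / r) * ev1 u r + ev2 u r) := by
  have e : deriv F =ᶠ[nhds r] fun x : ℝ => (x : ℂ) ^ l * ((l / x) * ev0 u x + ev1 u x) := by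
    filter_upwards [lt_mem_nhds hr] with x hx
    exact deriv_radial hu hF hx
  rw [e.deriv_eq, (hasDerivAt_rl1 hu hr).deriv]

theorem lapl_radial (d : ℕ) {l : ℕ} {u F : ℝ → ℂ} (hu : ContDiff ℝ 2 u)
    (hF : ∀ r : ℝ, 0 < r → F r = (r : ℂ) ^ l * u (r ^ 2)) {r : ℝ} (hr : 0 < r) :
    lapl d l F r = (r : ℂ) ^ l * (ev2 u r + (((d : ℂ) + 2 * l - 1) / r) * ev1 u r) := by
  have hr0 : (r : ℂ) ≠ 0 := by exact_mod_cast hr.ne'
  unfold lapl
  rw [deriv_radial hu hF hr, deriv2_radial hu hF hr, hF r hr]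
  unfold ev0
  field_simp
  ring

/-- The divided system at one radius. -/
structure DEq (d m l : ℕ) (ω : ℝ) (lam : ℂ) (h u v e1 e2 : ℝ → ℂ) (r : ℝ) : Prop where
  eu : I * (ev2 u r + (((d : ℂ) + 2 * l - 1) / r) * ev1 u r) - (l / 2) * ev0 u r
      - (r / 2) * ev1 u r - (aa m : ℂ) * ev0 u r + I * (ω : ℂ) * ev0 u r
      - I * (((m : ℂ) + 1) * W1 m (ev0 h r) * ev0 u r + (m : ℂ) * W2 m (ev0 h r) * ev0 v r)
      = lam * ev0 u r + e1 r
  ev : -(I * (ev2 v r + (((d : ℂ) + 2 * l - 1) / r) * ev1 v r)) - (l / 2) * ev0 v r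
      - (r / 2) * ev1 v r - (aa m : ℂ) * ev0 v r - I * (ω : ℂ) * ev0 v r
      + I * (((m : ℂ) + 1) * W1 m (ev0 h r) * ev0 v r
        + (m : ℂ) * (starRingEnd ℂ) (W2 m (ev0 h r)) * ev0 u r)
      = lam * ev0 v r + e2 r

/-- From `RL1, RL2` to the divided system. -/
theorem dEq_of_RL {d m l : ℕ} {ω : ℝ} {lam : ℂ} {h u v e1 e2 q F G : ℝ → ℂ}
    (hu : ContDiff ℝ 2 u) (hv : ContDiff ℝ 2 v)
    (hF : ∀ r : ℝ, 0 < r → F r = (r : ℂ) ^ l * u (r ^ 2))
    (hG : ∀ r : ℝ, 0 < r → G r = (r : ℂ) ^ l * v (r ^ 2)) {r : ℝ} (hr : 0 < r)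
    (hq : q r = h (r ^ 2))
    (E1 : RL1 d m l ω q F G r = lam * F r + (r : ℂ) ^ l * e1 r)
    (E2 : RL2 d m l ω q F G r = lam * G r + (r : ℂ) ^ l * e2 r) :
    DEq d m l ω lam h u v e1 e2 r := by
  have hr0 : (r : ℂ) ≠ 0 := by exact_mod_cast hr.ne'
  have hrl : (r : ℂ) ^ l ≠ 0 := pow_ne_zero _ hr0
  constructor
  · unfold RL1 at E1
    rw [lapl_radial d hu hF hr, deriv_radial hu hF hr, hF r hr, hG r hr, hq] at E1
    refine mul_left_cancel₀ hrl ?_
    change (r : ℂ) ^ l * (I * (ev2 u r + (((d : ℂ) + 2 * l - 1) / r) * ev1 u r) - (l / 2) * u (r ^ 2)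
      - (r / 2) * ev1 u r - (aa m : ℂ) * u (r ^ 2) + I * (ω : ℂ) * u (r ^ 2)
      - I * (((m : ℂ) + 1) * W1 m (h (r ^ 2)) * u (r ^ 2) +
        (m : ℂ) * W2 m (h (r ^ 2)) * v (r ^ 2)))
      = (r : ℂ) ^ l * (lam * u (r ^ 2) + e1 r)
    have e : (r : ℂ) / 2 * ((r : ℂ) ^ l * ((l / r) * ev0 u r + ev1 u r)) =
        (r : ℂ) ^ l * ((l / 2) * u (r ^ 2) + (r / 2) * ev1 u r) := by
      unfold ev0
      field_simp
    rw [e] at E1
    linear_combination E1
  · unfold RL2 at E2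
    rw [lapl_radial d hv hG hr, deriv_radial hv hG hr, hF r hr, hG r hr, hq] at E2
    refine mul_left_cancel₀ hrl ?_
    change (r : ℂ) ^ l * (-(I * (ev2 v r + (((d : ℂ) + 2 * l - 1) / r) * ev1 v r))
      - (l / 2) * v (r ^ 2)
      - (r / 2) * ev1 v r - (aa m : ℂ) * v (r ^ 2) - I * (ω : ℂ) * v (r ^ 2)
      + I * (((m : ℂ) + 1) * W1 m (h (r ^ 2)) * v (r ^ 2)
        + (m : ℂ) * (starRingEnd ℂ) (W2 m (h (r ^ 2))) * u (r ^ 2)))
      = (r : ℂ) ^ l * (lam * v (r ^ 2) + e2 r)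
    have e : (r : ℂ) / 2 * ((r : ℂ) ^ l * ((l / r) * ev0 v r + ev1 v r)) =
        (r : ℂ) ^ l * ((l / 2) * v (r ^ 2) + (r / 2) * ev1 v r) := by
      unfold ev0
      field_simp
    rw [e] at E2
    linear_combination E2

section algebra

variable (X Y u u1 u2 v v1 v2 P om t2 r κ n a ω lam e1 e2 l d m : ℂ)

theorem alg_u (hA : I * (u2 + κ * u1) - (l / 2) * u - (r / 2) * u1 - a * u + I * ω * u
      - I * ((m + 1) * P * u + m * (P * Y ^ 2) * v) = lam * u + e1) :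
    u2 = -κ * u1 - I * ((l / 2) * u + (r / 2) * u1 + a * u - I * ω * u
      + I * ((m + 1) * P * u + m * (P * Y ^ 2) * v) + lam * u + e1) := by
  linear_combination (-I) * hA + (u2 + κ * u1) * Complex.I_sq

theorem alg_v (hB : -(I * (v2 + κ * v1)) - (l / 2) * v - (r / 2) * v1 - a * v - I * ω * v
      + I * ((m + 1) * P * v + m * (P * X ^ 2) * u) = lam * v + e2) :
    v2 = -κ * v1 + I * ((l / 2) * v + (r / 2) * v1 + a * v + I * ω * v
      - I * ((m + 1) * P * v + m * (P * X ^ 2) * u) + lam * v + e2) := by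
  linear_combination I * hB + (v2 + κ * v1) * Complex.I_sq

theorem alg_s (hXY : X * Y = 1) (hκ : κ * r = n) (hn : n + 1 = d + 2 * l)
    (hA : I * (u2 + κ * u1) - (l / 2) * u - (r / 2) * u1 - a * u + I * ω * u
      - I * ((m + 1) * P * u + m * (P * Y ^ 2) * v) = lam * u + e1)
    (hB : -(I * (v2 + κ * v1)) - (l / 2) * v - (r / 2) * v1 - a * v - I * ω * v
      + I * ((m + 1) * P * v + m * (P * X ^ 2) * u) = lam * v + e2) :
    κ * (X * (u1 - I * (2 * r * om) * u) + Y * (v1 + I * (2 * r * om) * v))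
      + ((X * (-(I * (2 * r * om))) * (u1 - I * (2 * r * om) * u)
          + X * (u2 - I * (t2 * u + (2 * r * om) * u1)))
        + (Y * (I * (2 * r * om)) * (v1 + I * (2 * r * om) * v)
          + Y * (v2 + I * (t2 * v + (2 * r * om) * v1)))) =
    (((2 * r * om) ^ 2 + r / 2 * (2 * r * om) - ω) + (2 * m + 1) * P) * (X * u + Y * v)
      - I * (((r * (1 / 2 + 4 * om)) * (X * (u1 - I * (2 * r * om) * u)
          - Y * (v1 + I * (2 * r * om) * v))
        + ((n + 1) / 4 + 2 * n * om + t2) * (X * u - Y * v))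
        + (lam + a - d / 4) * (X * u - Y * v))
      + -I * (e1 * X - e2 * Y) := by
  have hA' := alg_u Y u u1 u2 v P r κ a ω lam e1 l m hA
  have hB' := alg_v X u v v1 v2 P r κ a ω lam e2 l m hB
  linear_combination X * hA' + Y * hB'
    + ((X * u + Y * v) * (2 * r * om) ^ 2 + ω * (X * u + Y * v)
      - ((m + 1) * P * u + m * (P * Y ^ 2) * v) * X - ((m + 1) * P * v + m * (P * X ^ 2) * u) * Y
      - r * (1 / 2 + 4 * om) * (2 * r * om) * (X * u + Y * v)) * Complex.I_sq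
    + m * P * (v * Y + u * X) * hXY - 2 * I * om * (X * u - Y * v) * hκ
    + I / 4 * (X * u - Y * v) * hn

theorem alg_t (hXY : X * Y = 1) (hκ : κ * r = n) (hn : n + 1 = d + 2 * l)
    (hA : I * (u2 + κ * u1) - (l / 2) * u - (r / 2) * u1 - a * u + I * ω * u
      - I * ((m + 1) * P * u + m * (P * Y ^ 2) * v) = lam * u + e1)
    (hB : -(I * (v2 + κ * v1)) - (l / 2) * v - (r / 2) * v1 - a * v - I * ω * v
      + I * ((m + 1) * P * v + m * (P * X ^ 2) * u) = lam * v + e2) :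
    κ * (X * (u1 - I * (2 * r * om) * u) - Y * (v1 + I * (2 * r * om) * v))
      + ((X * (-(I * (2 * r * om))) * (u1 - I * (2 * r * om) * u)
          + X * (u2 - I * (t2 * u + (2 * r * om) * u1)))
        - (Y * (I * (2 * r * om)) * (v1 + I * (2 * r * om) * v)
          + Y * (v2 + I * (t2 * v + (2 * r * om) * v1)))) =
    (((2 * r * om) ^ 2 + r / 2 * (2 * r * om) - ω) + P) * (X * u - Y * v)
      - I * (((r * (1 / 2 + 4 * om)) * (X * (u1 - I * (2 * r * om) * u)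
          + Y * (v1 + I * (2 * r * om) * v))
        + ((n + 1) / 4 + 2 * n * om + t2) * (X * u + Y * v))
        + (lam + a - d / 4) * (X * u + Y * v))
      + -I * (e1 * X + e2 * Y) := by
  have hA' := alg_u Y u u1 u2 v P r κ a ω lam e1 l m hA
  have hB' := alg_v X u v v1 v2 P r κ a ω lam e2 l m hB
  linear_combination X * hA' - Y * hB'
    + ((X * u - Y * v) * (2 * r * om) ^ 2 + ω * (X * u - Y * v)
      - ((m + 1) * P * u + m * (P * Y ^ 2) * v) * X + ((m + 1) * P * v + m * (P * X ^ 2) * u) * Y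
      - r * (1 / 2 + 4 * om) * (2 * r * om) * (X * u - Y * v)) * Complex.I_sq
    + m * P * (v * Y - u * X) * hXY - 2 * I * om * (X * u + Y * v) * hκ
    + I / 4 * (X * u + Y * v) * hn

end algebra

section main

variable {h : ℝ → ℂ} (hh : ContDiff ℝ 2 h) (hne : ∀ z : ℝ, 0 ≤ z → h z ≠ 0)

include hh hne

theorem hasDerivAt_g1 {u : ℝ → ℂ} (hu : ContDiff ℝ 2 u) (σ : ℂ) (r : ℝ) :
    HasDerivAt (fun x => ev1 u x + σ * (th1 h x : ℂ) * ev0 u x)
      (ev2 u r + σ * ((th2 h r : ℂ) * ev0 u r + (th1 h r : ℂ) * ev1 u r)) r := by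
  have h1 := (hasDerivAt_th1 hh hne r).ofReal_comp
  have h2 := (hasDerivAt_ev1 hu r).add ((h1.const_mul σ).mul (hasDerivAt_ev0 hu r))
  refine h2.congr_deriv ?_
  ring

theorem hasDerivAt_gs1 {u v : ℝ → ℂ} (hu : ContDiff ℝ 2 u) (hv : ContDiff ℝ 2 v) (r : ℝ) :
    HasDerivAt (gs1 h u v)
      ((em h r * (-(I * th1 h r)) * (ev1 u r - I * th1 h r * ev0 u r)
          + em h r * (ev2 u r - I * (th2 h r * ev0 u r + th1 h r * ev1 u r)))
        + (ep h r * (I * th1 h r) * (ev1 v r + I * th1 h r * ev0 v r)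
          + ep h r * (ev2 v r + I * (th2 h r * ev0 v r + th1 h r * ev1 v r)))) r := by
  have h1 := (hasDerivAt_em hh hne r).mul (hasDerivAt_g1 hh hne hu (-I) r)
  have h2 := (hasDerivAt_ep hh hne r).mul (hasDerivAt_g1 hh hne hv I r)
  have h3 := h1.add h2
  have e : gs1 h u v = (em h * fun x => ev1 u x + -I * (th1 h x : ℂ) * ev0 u x)
      + (ep h * fun x => ev1 v x + I * (th1 h x : ℂ) * ev0 v x) := by
    ext x
    simp only [gs1, Pi.add_apply, Pi.mul_apply]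
    ring
  rw [e]
  refine h3.congr_deriv ?_
  ring

theorem hasDerivAt_gt1 {u v : ℝ → ℂ} (hu : ContDiff ℝ 2 u) (hv : ContDiff ℝ 2 v) (r : ℝ) :
    HasDerivAt (gt1 h u v)
      ((em h r * (-(I * th1 h r)) * (ev1 u r - I * th1 h r * ev0 u r)
          + em h r * (ev2 u r - I * (th2 h r * ev0 u r + th1 h r * ev1 u r)))
        - (ep h r * (I * th1 h r) * (ev1 v r + I * th1 h r * ev0 v r)
          + ep h r * (ev2 v r + I * (th2 h r * ev0 v r + th1 h r * ev1 v r)))) r := by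
  have h1 := (hasDerivAt_em hh hne r).mul (hasDerivAt_g1 hh hne hu (-I) r)
  have h2 := (hasDerivAt_ep hh hne r).mul (hasDerivAt_g1 hh hne hv I r)
  have h3 := h1.sub h2
  have e : gt1 h u v = (em h * fun x => ev1 u x + -I * (th1 h x : ℂ) * ev0 u x)
      - (ep h * fun x => ev1 v x + I * (th1 h x : ℂ) * ev0 v x) := by
    ext x
    simp only [gt1, Pi.sub_apply, Pi.mul_apply]
    ring
  rw [e]
  refine h3.congr_deriv ?_
  ring

omit hne in
theorem continuous_gP (m : ℕ) : Continuous (gP m h) := (continuous_ev0 hh).norm.pow _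

theorem continuous_gV (ω : ℝ) : Continuous (gV ω h) := by
  have h1 := continuous_th1 hh hne
  unfold gV
  fun_prop

theorem continuous_gw : Continuous (gw h) := by
  have h1 := continuous_om hh hne
  unfold gw
  fun_prop

theorem continuous_gdel (n : ℕ) : Continuous (gdel n h) := by
  have h1 := continuous_om hh hne
  have h2 := continuous_th2 hh hne
  unfold gdel
  fun_prop

/-- **[SB2]** the gauge lemma. -/
theorem gsys {d m l n : ℕ} {ω R2 : ℝ} {lam : ℂ} {u v e1 e2 : ℝ → ℂ}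
    (hn : n + 1 = d + 2 * l) (hn1 : 1 ≤ n) (hm : 1 ≤ m) (hR : 0 < R2)
    (hu : ContDiff ℝ 2 u) (hv : ContDiff ℝ 2 v)
    (he1 : ContinuousOn e1 (Icc 0 R2)) (he2 : ContinuousOn e2 (Icc 0 R2))
    (hE : ∀ r ∈ Ioo 0 R2, DEq d m l ω lam h u v e1 e2 r) :
    H311.GSys n R2 (2 * m + 1) (gP m h) (gV ω h) (gw h) (gdel n h)
      (lam + aa m - (d : ℂ) / 4) (gs h u v) (gt h u v) (gs1 h u v) (gt1 h u v)
      (gS0 h e1 e2) (gT0 h e1 e2) where
  n_pos := hn1
  R2_pos := hR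
  cP := (continuous_gP hh m).continuousOn
  cV := (continuous_gV hh hne ω).continuousOn
  cw := (continuous_gw hh hne).continuousOn
  cδ := (continuous_gdel hh hne n).continuousOn
  cs := fun r _ => (hasDerivAt_gs hh hne hu hv r).continuousAt.continuousWithinAt
  ct := fun r _ => (hasDerivAt_gt hh hne hu hv r).continuousAt.continuousWithinAt
  cs1 := fun r _ => (hasDerivAt_gs1 hh hne hu hv r).continuousAt.continuousWithinAt
  ct1 := fun r _ => (hasDerivAt_gt1 hh hne hu hv r).continuousAt.continuousWithinAt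
  cS0 := by
    have h1 := (continuous_em hh hne).continuousOn (s := Icc 0 R2)
    have h2 := (continuous_ep hh hne).continuousOn (s := Icc 0 R2)
    exact continuousOn_const.mul ((he1.mul h1).sub (he2.mul h2))
  cT0 := by
    have h1 := (continuous_em hh hne).continuousOn (s := Icc 0 R2)
    have h2 := (continuous_ep hh hne).continuousOn (s := Icc 0 R2)
    exact continuousOn_const.mul ((he1.mul h1).add (he2.mul h2))
  ds := fun r _ => hasDerivAt_gs hh hne hu hv r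
  dt := fun r _ => hasDerivAt_gt hh hne hu hv r
  dw := fun r _ => hasDerivAt_gw hh hne n r
  es := by
    intro r hr
    have hr0 : (r : ℂ) ≠ 0 := by exact_mod_cast hr.1.ne'
    have h1 : HasDerivAt (fun x : ℝ => ((x ^ n : ℝ) : ℂ)) ((r : ℂ) ^ n * (n / r)) r := by
      have := hasDerivAt_rpow_nat n hr.1
      refine this.congr_of_eventuallyEq (Filter.Eventually.of_forall fun x => ?_)
      push_cast
      rfl
    have h2 := h1.mul (hasDerivAt_gs1 hh hne hu hv r)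
    refine h2.congr_deriv ?_
    obtain ⟨hA, hB⟩ := hE r hr
    rw [W1_eq, W2_eq hh hne hm] at hA
    rw [W1_eq, conj_W2_eq hh hne hm] at hB
    have hκ : ((n : ℂ) / r) * r = n := by field_simp
    have hnc : (n : ℂ) + 1 = d + 2 * l := by exact_mod_cast hn
    have hnr : (((d : ℂ) + 2 * l - 1) / r) = (n : ℂ) / r := by
      rw [← hnc]
      ring
    rw [hnr] at hA hB
    have key := alg_s (em h r) (ep h r) (ev0 u r) (ev1 u r) (ev2 u r) (ev0 v r) (ev1 v r)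
      (ev2 v r) (gP m h r) (om h r) (th2 h r) r (n / r) n (aa m) ω lam (e1 r) (e2 r) l d m
      (em_mul_ep r) hκ hnc hA hB
    have ht : (th1 h r : ℂ) = 2 * r * om h r := by
      rw [th1_eq]
      push_cast
      ring
    simp only [gs1, gt1, gs, gt, gS0, gV, gw, gdel, H311.dil, ht]
    push_cast
    rw [ht]
    linear_combination ((r : ℂ) ^ n) * key
  et := by
    intro r hr
    have hr0 : (r : ℂ) ≠ 0 := by exact_mod_cast hr.1.ne'
    have h1 : HasDerivAt (fun x : ℝ => ((x ^ n : ℝ) : ℂ)) ((r : ℂ) ^ n * (n / r)) r := by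
      have := hasDerivAt_rpow_nat n hr.1
      refine this.congr_of_eventuallyEq (Filter.Eventually.of_forall fun x => ?_)
      push_cast
      rfl
    have h2 := h1.mul (hasDerivAt_gt1 hh hne hu hv r)
    refine h2.congr_deriv ?_
    obtain ⟨hA, hB⟩ := hE r hr
    rw [W1_eq, W2_eq hh hne hm] at hA
    rw [W1_eq, conj_W2_eq hh hne hm] at hB
    have hκ : ((n : ℂ) / r) * r = n := by field_simp
    have hnc : (n : ℂ) + 1 = d + 2 * l := by exact_mod_cast hn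
    have hnr : (((d : ℂ) + 2 * l - 1) / r) = (n : ℂ) / r := by
      rw [← hnc]
      ring
    rw [hnr] at hA hB
    have key := alg_t (em h r) (ep h r) (ev0 u r) (ev1 u r) (ev2 u r) (ev0 v r) (ev1 v r)
      (ev2 v r) (gP m h r) (om h r) (th2 h r) r (n / r) n (aa m) ω lam (e1 r) (e2 r) l d m
      (em_mul_ep r) hκ hnc hA hB
    have ht : (th1 h r : ℂ) = 2 * r * om h r := by
      rw [th1_eq]
      push_cast
      ring
    simp only [gs1, gt1, gs, gt, gT0, gV, gw, gdel, H311.dil, ht]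
    push_cast
    rw [ht]
    linear_combination ((r : ℂ) ^ n) * key

end main

/-! ### Consequences -/

/-- **[SB2]**, from the radial operators of `BU.Core`. -/
theorem gsys_of_RL {d m l n : ℕ} {ω R2 : ℝ} {lam : ℂ} {h u v e1 e2 q F G : ℝ → ℂ}
    (hh : ContDiff ℝ 2 h) (hne : ∀ z : ℝ, 0 ≤ z → h z ≠ 0)
    (hn : n + 1 = d + 2 * l) (hn1 : 1 ≤ n) (hm : 1 ≤ m) (hR : 0 < R2)
    (hu : ContDiff ℝ 2 u) (hv : ContDiff ℝ 2 v)
    (he1 : ContinuousOn e1 (Icc 0 R2)) (he2 : ContinuousOn e2 (Icc 0 R2))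
    (hq : ∀ r : ℝ, 0 < r → q r = h (r ^ 2))
    (hF : ∀ r : ℝ, 0 < r → F r = (r : ℂ) ^ l * u (r ^ 2))
    (hG : ∀ r : ℝ, 0 < r → G r = (r : ℂ) ^ l * v (r ^ 2))
    (E1 : ∀ r ∈ Ioo 0 R2, RL1 d m l ω q F G r = lam * F r + (r : ℂ) ^ l * e1 r)
    (E2 : ∀ r ∈ Ioo 0 R2, RL2 d m l ω q F G r = lam * G r + (r : ℂ) ^ l * e2 r) :
    H311.GSys n R2 (2 * m + 1) (gP m h) (gV ω h) (gw h) (gdel n h)
      (lam + aa m - (d : ℂ) / 4) (gs h u v) (gt h u v) (gs1 h u v) (gt1 h u v)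
      (gS0 h e1 e2) (gT0 h e1 e2) :=
  gsys hh hne hn hn1 hm hR hu hv he1 he2
    (fun r hr => dEq_of_RL hu hv hF hG hr.1 (hq r hr.1) (E1 r hr) (E2 r hr))

theorem norm_em (h : ℝ → ℂ) (r : ℝ) : ‖em h r‖ = 1 := by
  unfold em
  rw [show -(I * (th h r : ℂ)) = ((-th h r : ℝ) : ℂ) * I by push_cast; ring]
  exact Complex.norm_exp_ofReal_mul_I _

theorem norm_ep (h : ℝ → ℂ) (r : ℝ) : ‖ep h r‖ = 1 := by
  unfold ep
  rw [show I * (th h r : ℂ) = ((th h r : ℝ) : ℂ) * I by ring]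
  exact Complex.norm_exp_ofReal_mul_I _

/-- recover `u` from the gauged pair. -/
theorem ev0_u_eq (h u v : ℝ → ℂ) (r : ℝ) :
    ev0 u r = ep h r * ((gs h u v r + gt h u v r) / 2) := by
  have e := em_mul_ep (h := h) r
  unfold gs gt
  linear_combination (-ev0 u r) * e

theorem ev0_v_eq (h u v : ℝ → ℂ) (r : ℝ) :
    ev0 v r = em h r * ((gs h u v r - gt h u v r) / 2) := by
  have e := em_mul_ep (h := h) r
  unfold gs gt
  linear_combination (-ev0 v r) * e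

theorem ev1_u_eq (h u v : ℝ → ℂ) (r : ℝ) :
    ev1 u r = ep h r * ((gs1 h u v r + gt1 h u v r) / 2)
      + I * th1 h r * (ep h r * ((gs h u v r + gt h u v r) / 2)) := by
  have e := em_mul_ep (h := h) r
  unfold gs gt gs1 gt1
  linear_combination (-ev1 u r) * e

theorem ev1_v_eq (h u v : ℝ → ℂ) (r : ℝ) :
    ev1 v r = em h r * ((gs1 h u v r - gt1 h u v r) / 2)
      - I * th1 h r * (em h r * ((gs h u v r - gt h u v r) / 2)) := by
  have e := em_mul_ep (h := h) r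
  unfold gs gt gs1 gt1
  linear_combination (-ev1 v r) * e

theorem norm_gs_le (h u v : ℝ → ℂ) (r : ℝ) : ‖gs h u v r‖ ≤ ‖ev0 u r‖ + ‖ev0 v r‖ := by
  unfold gs
  refine (norm_add_le _ _).trans (le_of_eq ?_)
  rw [norm_mul, norm_mul, norm_em, norm_ep, one_mul, one_mul]

theorem norm_gt_le (h u v : ℝ → ℂ) (r : ℝ) : ‖gt h u v r‖ ≤ ‖ev0 u r‖ + ‖ev0 v r‖ := by
  unfold gt
  refine (norm_sub_le _ _).trans (le_of_eq ?_)
  rw [norm_mul, norm_mul, norm_em, norm_ep, one_mul, one_mul]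

theorem norm_gs1_le (h u v : ℝ → ℂ) (r : ℝ) :
    ‖gs1 h u v r‖ ≤ ‖ev1 u r‖ + ‖ev1 v r‖ + |th1 h r| * (‖ev0 u r‖ + ‖ev0 v r‖) := by
  have h1 : ‖ev1 u r - I * th1 h r * ev0 u r‖ ≤ ‖ev1 u r‖ + |th1 h r| * ‖ev0 u r‖ := by
    refine (norm_sub_le _ _).trans (le_of_eq ?_)
    rw [norm_mul, norm_mul, Complex.norm_I, one_mul, Complex.norm_real, Real.norm_eq_abs]
  have h2 : ‖ev1 v r + I * th1 h r * ev0 v r‖ ≤ ‖ev1 v r‖ + |th1 h r| * ‖ev0 v r‖ := by
    refine (norm_add_le _ _).trans (le_of_eq ?_)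
    rw [norm_mul, norm_mul, Complex.norm_I, one_mul, Complex.norm_real, Real.norm_eq_abs]
  unfold gs1
  refine (norm_add_le _ _).trans ?_
  rw [norm_mul, norm_mul, norm_em, norm_ep, one_mul, one_mul]
  linarith

theorem norm_gt1_le (h u v : ℝ → ℂ) (r : ℝ) :
    ‖gt1 h u v r‖ ≤ ‖ev1 u r‖ + ‖ev1 v r‖ + |th1 h r| * (‖ev0 u r‖ + ‖ev0 v r‖) := by
  have h1 : ‖ev1 u r - I * th1 h r * ev0 u r‖ ≤ ‖ev1 u r‖ + |th1 h r| * ‖ev0 u r‖ := by
    refine (norm_sub_le _ _).trans (le_of_eq ?_)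
    rw [norm_mul, norm_mul, Complex.norm_I, one_mul, Complex.norm_real, Real.norm_eq_abs]
  have h2 : ‖ev1 v r + I * th1 h r * ev0 v r‖ ≤ ‖ev1 v r‖ + |th1 h r| * ‖ev0 v r‖ := by
    refine (norm_add_le _ _).trans (le_of_eq ?_)
    rw [norm_mul, norm_mul, Complex.norm_I, one_mul, Complex.norm_real, Real.norm_eq_abs]
  unfold gt1
  refine (norm_sub_le _ _).trans ?_
  rw [norm_mul, norm_mul, norm_em, norm_ep, one_mul, one_mul]
  linarith

/-- gauge transform of the sources: if the source is itself a pair `(u₀, v₀)`, the gauged sources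
are `-i t₀` and `-i s₀`. -/
theorem gS0_pair (h u0 v0 : ℝ → ℂ) (r : ℝ) :
    gS0 h (ev0 u0) (ev0 v0) r = -I * gt h u0 v0 r := by
  unfold gS0 gt
  ring

theorem gT0_pair (h u0 v0 : ℝ → ℂ) (r : ℝ) :
    gT0 h (ev0 u0) (ev0 v0) r = -I * gs h u0 v0 r := by
  unfold gT0 gs
  ring

/-- the phase mode `(i q, conj (i q))` has `s = 0`. -/
theorem gs_phase {h : ℝ → ℂ} (hh : ContDiff ℝ 2 h) (hne : ∀ z : ℝ, 0 ≤ z → h z ≠ 0) (r : ℝ) :
    gs h (fun z => I * h z) (fun z => (starRingEnd ℂ) (I * h z)) r = 0 := by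
  have hp : ev0 h r = (‖ev0 h r‖ : ℂ) * ep h r := ev0_polar hh hne r
  have hc : (starRingEnd ℂ) (ev0 h r) = (‖ev0 h r‖ : ℂ) * em h r := by
    conv_lhs => rw [hp]
    unfold ep em
    rw [map_mul, Complex.conj_ofReal, ← Complex.exp_conj, map_mul, Complex.conj_I,
      Complex.conj_ofReal, neg_mul]
  have e1 : ev0 (fun z => I * h z) r = I * ev0 h r := rfl
  have e2 : ev0 (fun z => (starRingEnd ℂ) (I * h z)) r = -I * (starRingEnd ℂ) (ev0 h r) := by
    unfold ev0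
    simp only [map_mul, Complex.conj_I]
  unfold gs
  rw [e1, e2, hc]
  generalize ‖ev0 h r‖ = N at *
  rw [hp]
  ring

end Vale.Agent.P139.H741
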