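import Vale.Agent.P139.H741.XFour

/-!
# Uniqueness for the free resolvent equation (helper741), [X3b]

If `u = 𝓕⁻ φ` with `φ, |ξ|² φ` integrable satisfies pointwise
`κ u = i Δ u - (1/2) y·∇u` with `Re κ > 0`, then `u = 0`.

Proof: test the equation against complex Gaussians; the functions
`A(s) = e^{2κs} ∫ φ(ξ) exp(-b(s)|ξ|² + 2π i e^s ξ·z) dξ`, `b(s) = 4π² i + (ε - 4π² i) e^{2s}`,
are constant and tend to `0` as `s → -∞`.
-/

open scoped ComplexConjugate FourierTransform RealInnerProductSpace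
open Complex MeasureTheory Vale.Agent.P139.BU

namespace Vale.Agent.P139.H741

variable {d : ℕ}

theorem integrable_exp_mul {g : E d → ℂ} (hg : Integrable g) (y : E d) :
    Integrable fun ξ => cexp (((2 * Real.pi * ⟪ξ, y⟫ : ℝ) : ℂ) * I) * g ξ := by
  refine hg.norm.mono' ?_ ?_
  · refine AEStronglyMeasurable.mul ?_ hg.aestronglyMeasurable
    refine Continuous.aestronglyMeasurable ?_
    fun_prop
  · refine Filter.Eventually.of_forall fun ξ => ?_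
    rw [norm_mul, Complex.norm_exp_ofReal_mul_I, one_mul]

theorem integrable_sq_mul {φ : E d → ℂ} (h0 : Integrable φ)
    (h2 : Integrable fun ξ => ‖ξ‖ ^ 2 * ‖φ ξ‖) (c : ℂ) :
    Integrable fun ξ => (c * ((‖ξ‖ ^ 2 : ℝ) : ℂ)) * φ ξ := by
  refine (h2.const_mul ‖c‖).mono' ?_ ?_
  · refine AEStronglyMeasurable.mul ?_ h0.aestronglyMeasurable
    refine Continuous.aestronglyMeasurable ?_
    fun_prop
  · refine Filter.Eventually.of_forall fun ξ => ?_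
    rw [norm_mul, norm_mul, Complex.norm_real, Real.norm_of_nonneg (by positivity), mul_assoc]

theorem integrable_inner_mul {φ : E d → ℂ} (h0 : Integrable φ)
    (h1 : Integrable fun ξ => ‖ξ‖ * ‖φ ξ‖) (y : E d) :
    Integrable fun ξ => (((2 * Real.pi * ⟪ξ, y⟫ : ℝ) : ℂ) * I) * φ ξ := by
  refine (h1.const_mul (2 * Real.pi * ‖y‖)).mono' ?_ ?_
  · refine AEStronglyMeasurable.mul ?_ h0.aestronglyMeasurable
    refine Continuous.aestronglyMeasurable ?_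
    fun_prop
  · refine Filter.Eventually.of_forall fun ξ => ?_
    have hp := Real.pi_pos
    rw [norm_mul, norm_mul, Complex.norm_I, mul_one, Complex.norm_real, Real.norm_eq_abs,
      abs_mul, abs_of_pos (by positivity : 0 < 2 * Real.pi)]
    have h := abs_real_inner_le_norm ξ y
    calc 2 * Real.pi * |⟪ξ, y⟫| * ‖φ ξ‖ ≤ 2 * Real.pi * (‖ξ‖ * ‖y‖) * ‖φ ξ‖ := by gcongr
      _ = 2 * Real.pi * ‖y‖ * (‖ξ‖ * ‖φ ξ‖) := by ring

/-- The pointwise equation in Fourier form. -/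
theorem eqn_fourier {φ : E d → ℂ} (h0 : Integrable φ)
    (h2 : Integrable fun ξ => ‖ξ‖ ^ 2 * ‖φ ξ‖) {κ : ℂ}
    (heq : ∀ y, κ * 𝓕⁻ φ y = I * lap (𝓕⁻ φ) y - (1 / 2) * eul (𝓕⁻ φ) y) (y : E d) :
    ∫ ξ, cexp (((2 * Real.pi * ⟪ξ, y⟫ : ℝ) : ℂ) * I) *
      ((2 * κ + 8 * Real.pi ^ 2 * I * ((‖ξ‖ ^ 2 : ℝ) : ℂ) +
        ((2 * Real.pi * ⟪ξ, y⟫ : ℝ) : ℂ) * I) * φ ξ) = 0 := by
  have h1 := integrable_mom1 h0 h2
  have h := heq y
  rw [lap_inv h0 h2, eul_inv h0 h1, inv_eq, inv_eq, inv_eq] at h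
  have e : ∀ ξ : E d, cexp (((2 * Real.pi * ⟪ξ, y⟫ : ℝ) : ℂ) * I) *
      ((2 * κ + 8 * Real.pi ^ 2 * I * ((‖ξ‖ ^ 2 : ℝ) : ℂ) +
        ((2 * Real.pi * ⟪ξ, y⟫ : ℝ) : ℂ) * I) * φ ξ) =
      (2 * κ) * (cexp (((2 * Real.pi * ⟪ξ, y⟫ : ℝ) : ℂ) * I) * φ ξ) +
      ((-2 * I) * (cexp (((2 * Real.pi * ⟪ξ, y⟫ : ℝ) : ℂ) * I) *
        (-((4 * Real.pi ^ 2 * ‖ξ‖ ^ 2 : ℝ) : ℂ) * φ ξ)) +
      cexp (((2 * Real.pi * ⟪ξ, y⟫ : ℝ) : ℂ) * I) *
        ((((2 * Real.pi * ⟪ξ, y⟫ : ℝ) : ℂ) * I) * φ ξ)) := fun ξ => by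
    push_cast
    ring
  have i1 : Integrable fun ξ : E d => cexp (((2 * Real.pi * ⟪ξ, y⟫ : ℝ) : ℂ) * I) * φ ξ :=
    integrable_exp_mul h0 y
  have i2 : Integrable fun ξ : E d => cexp (((2 * Real.pi * ⟪ξ, y⟫ : ℝ) : ℂ) * I) *
        (-((4 * Real.pi ^ 2 * ‖ξ‖ ^ 2 : ℝ) : ℂ) * φ ξ) := by
    refine integrable_exp_mul ?_ y
    refine (integrable_sq_mul h0 h2 (-(4 * Real.pi ^ 2 : ℂ))).congr
      (Filter.Eventually.of_forall fun ξ => ?_)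
    push_cast
    ring
  have i3 : Integrable fun ξ : E d => cexp (((2 * Real.pi * ⟪ξ, y⟫ : ℝ) : ℂ) * I) *
        ((((2 * Real.pi * ⟪ξ, y⟫ : ℝ) : ℂ) * I) * φ ξ) :=
    integrable_exp_mul (integrable_inner_mul h0 h1 y) y
  have i23 : Integrable fun ξ : E d => (-2 * I) * (cexp (((2 * Real.pi * ⟪ξ, y⟫ : ℝ) : ℂ) * I) *
        (-((4 * Real.pi ^ 2 * ‖ξ‖ ^ 2 : ℝ) : ℂ) * φ ξ)) +
      cexp (((2 * Real.pi * ⟪ξ, y⟫ : ℝ) : ℂ) * I) *
        ((((2 * Real.pi * ⟪ξ, y⟫ : ℝ) : ℂ) * I) * φ ξ) := (i2.const_mul _).add i3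
  simp_rw [e]
  rw [integral_add (i1.const_mul _) i23,
    integral_add (i2.const_mul _) i3, integral_const_mul, integral_const_mul]
  linear_combination 2 * h

/-- `s ≤ (1 + 1/c) exp((c/2) s²)`. -/
theorem le_exp_sq {c : ℝ} (hc : 0 < c) (s : ℝ) :
    s ≤ (1 + 1 / c) * Real.exp (c / 2 * s ^ 2) := by
  have h1 : 1 + c / 2 * s ^ 2 ≤ Real.exp (c / 2 * s ^ 2) := by
    have := Real.add_one_le_exp (c / 2 * s ^ 2)
    linarith
  have hK : 0 < 1 + 1 / c := by positivity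
  refine le_trans ?_ (mul_le_mul_of_nonneg_left h1 hK.le)
  have e : (1 + 1 / c) * (1 + c / 2 * s ^ 2) = 1 + 1 / c + (c + 1) / 2 * s ^ 2 := by
    field_simp
  rw [e]
  have : 0 < 1 / c := by positivity
  nlinarith [sq_nonneg (s - 1), sq_nonneg s, mul_nonneg hc.le (sq_nonneg s)]

theorem norm_gauss (β : ℂ) (x : E d) :
    ‖cexp (-β * (‖x‖ : ℂ) ^ 2)‖ = Real.exp (-β.re * ‖x‖ ^ 2) := by
  rw [Complex.norm_exp]
  congr 1
  rw [← Complex.ofReal_pow, Complex.re_mul_ofReal]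
  simp

theorem integrable_gauss {c : ℝ} (hc : 0 < c) :
    Integrable fun x : E d => Real.exp (-c * ‖x‖ ^ 2) := by
  have h := (GaussianFourier.integrable_cexp_neg_mul_sq_norm_add (V := E d)
    (b := (c : ℂ)) (by simpa using hc) 0 0).norm
  refine h.congr (Filter.Eventually.of_forall fun x => ?_)
  have := norm_gauss (c : ℂ) x
  simp only [zero_mul, add_zero]
  rw [this]
  simp

theorem integrable_mom_gauss {c : ℝ} (hc : 0 < c) :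
    Integrable fun x : E d => (1 + ‖x‖) * Real.exp (-c * ‖x‖ ^ 2) := by
  have h := (integrable_gauss (d := d) (half_pos hc)).const_mul (1 + (1 + 1 / c))
  refine h.mono' ?_ ?_
  · exact Continuous.aestronglyMeasurable (by fun_prop)
  · refine Filter.Eventually.of_forall fun x => ?_
    rw [Real.norm_of_nonneg (by positivity)]
    have h1 := le_exp_sq hc ‖x‖
    have h2 : (1 : ℝ) ≤ Real.exp (c / 2 * ‖x‖ ^ 2) := Real.one_le_exp (by positivity)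
    have e : Real.exp (-(c / 2) * ‖x‖ ^ 2) =
        Real.exp (c / 2 * ‖x‖ ^ 2) * Real.exp (-c * ‖x‖ ^ 2) := by
      rw [← Real.exp_add]
      congr 1
      ring
    rw [e, ← mul_assoc]
    gcongr
    have h3 : 0 < 1 + 1 / c := by positivity
    nlinarith

/-- Gaussian integral. -/
theorem gauss0 {β : ℂ} (hβ : 0 < β.re) (t : ℝ) (ξ : E d) :
    ∫ x : E d, cexp (-β * (‖x‖ : ℂ) ^ 2) * cexp (((2 * Real.pi * (t * ⟪ξ, x⟫) : ℝ) : ℂ) * I) =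
      (Real.pi / β) ^ ((d : ℂ) / 2) * cexp (-(Real.pi ^ 2 / β) * ((t * t * ‖ξ‖ ^ 2 : ℝ) : ℂ)) := by
  have h := GaussianFourier.integral_cexp_neg_mul_sq_norm_add hβ (2 * Real.pi * t * I) ξ
  have hβ0 : β ≠ 0 := by
    rintro rfl
    simp at hβ
  rw [finrank_euclideanSpace_fin] at h
  rw [show (-(Real.pi ^ 2 / β) * ((t * t * ‖ξ‖ ^ 2 : ℝ) : ℂ) : ℂ) =
    (2 * Real.pi * t * I) ^ 2 * ‖ξ‖ ^ 2 / (4 * β) by
      push_cast
      rw [mul_pow, Complex.I_sq]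
      field_simp
      ring, ← h]
  refine integral_congr_ae (Filter.Eventually.of_forall fun x => ?_)
  simp only
  rw [← Complex.exp_add]
  congr 1
  push_cast
  ring

/-- First moment of the Gaussian. -/
theorem gauss1 {β : ℂ} (hβ : 0 < β.re) (ξ : E d) :
    ∫ x : E d, (((2 * Real.pi * ⟪ξ, x⟫ : ℝ) : ℂ) * I) * (cexp (-β * (‖x‖ : ℂ) ^ 2) *
      cexp (((2 * Real.pi * ⟪ξ, x⟫ : ℝ) : ℂ) * I)) =
      (Real.pi / β) ^ ((d : ℂ) / 2) * ((-2 * (Real.pi ^ 2 / β) * ((‖ξ‖ ^ 2 : ℝ) : ℂ)) *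
        cexp (-(Real.pi ^ 2 / β) * ((‖ξ‖ ^ 2 : ℝ) : ℂ))) := by
  set F : ℝ → E d → ℂ := fun t x => cexp (-β * (‖x‖ : ℂ) ^ 2) *
    cexp (((2 * Real.pi * (t * ⟪ξ, x⟫) : ℝ) : ℂ) * I) with hF
  set F' : ℝ → E d → ℂ := fun t x => (((2 * Real.pi * ⟪ξ, x⟫ : ℝ) : ℂ) * I) *
    (cexp (-β * (‖x‖ : ℂ) ^ 2) * cexp (((2 * Real.pi * (t * ⟪ξ, x⟫) : ℝ) : ℂ) * I)) with hF'
  have hFc : ∀ t, AEStronglyMeasurable (F t) volume := fun t =>
    Continuous.aestronglyMeasurable (by simp only [hF]; fun_prop)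
  have hF'c : ∀ t, AEStronglyMeasurable (F' t) volume := fun t =>
    Continuous.aestronglyMeasurable (by simp only [hF']; fun_prop)
  have hFi : Integrable (F 1) := by
    refine (integrable_gauss (d := d) hβ).mono' (hFc 1) (Filter.Eventually.of_forall fun x => ?_)
    simp only [hF]
    rw [norm_mul, Complex.norm_exp_ofReal_mul_I, mul_one, norm_gauss]
  have hb : ∀ᵐ x : E d, ∀ t ∈ (Set.univ : Set ℝ), ‖F' t x‖ ≤
      (2 * Real.pi * ‖ξ‖) * ((1 + ‖x‖) * Real.exp (-β.re * ‖x‖ ^ 2)) := by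
    refine Filter.Eventually.of_forall fun x t _ => ?_
    have hp := Real.pi_pos
    simp only [hF']
    rw [norm_mul, norm_mul, norm_mul, Complex.norm_I, mul_one, Complex.norm_exp_ofReal_mul_I,
      mul_one, norm_gauss, Complex.norm_real, Real.norm_eq_abs,
      abs_mul, abs_of_pos (by positivity : 0 < 2 * Real.pi)]
    have h := abs_real_inner_le_norm ξ x
    have h2 : ‖ξ‖ * ‖x‖ ≤ ‖ξ‖ * (1 + ‖x‖) := by gcongr; linarith
    calc 2 * Real.pi * |⟪ξ, x⟫| * Real.exp (-β.re * ‖x‖ ^ 2)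
        ≤ 2 * Real.pi * (‖ξ‖ * (1 + ‖x‖)) * Real.exp (-β.re * ‖x‖ ^ 2) := by
          gcongr
          exact h.trans h2
      _ = _ := by ring
  have hd : ∀ᵐ x : E d, ∀ t ∈ (Set.univ : Set ℝ), HasDerivAt (fun t => F t x) (F' t x) t := by
    refine Filter.Eventually.of_forall fun x t _ => ?_
    simp only [hF, hF']
    have h1 : HasDerivAt (fun t : ℝ => (((2 * Real.pi * (t * ⟪ξ, x⟫) : ℝ) : ℂ) * I))
        (((2 * Real.pi * ⟪ξ, x⟫ : ℝ) : ℂ) * I) t := by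
      have h2 : HasDerivAt (fun t : ℝ => (2 * Real.pi * (t * ⟪ξ, x⟫) : ℝ))
          (2 * Real.pi * (1 * ⟪ξ, x⟫)) t :=
        ((hasDerivAt_id t).mul_const _).const_mul _
      rw [one_mul] at h2
      exact h2.ofReal_comp.mul_const I
    have h3 := (h1.cexp).const_mul (cexp (-β * (‖x‖ : ℂ) ^ 2))
    refine h3.congr_deriv ?_
    ring
  have key := (hasDerivAt_integral_of_dominated_loc_of_deriv_le (μ := volume) (F := F) (F' := F')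
    (x₀ := 1) (s := Set.univ) Filter.univ_mem
    (Filter.Eventually.of_forall hFc) hFi (hF'c 1) hb
    ((integrable_mom_gauss hβ).const_mul _) hd).2
  have e0 : (fun t => ∫ x : E d, F t x) = fun t : ℝ => (Real.pi / β) ^ ((d : ℂ) / 2) *
      cexp (-(Real.pi ^ 2 / β) * ((t * t * ‖ξ‖ ^ 2 : ℝ) : ℂ)) := by
    ext t
    exact gauss0 hβ t ξ
  rw [e0] at key
  have key2 : HasDerivAt (fun t : ℝ => (Real.pi / β) ^ ((d : ℂ) / 2) *
      cexp (-(Real.pi ^ 2 / β) * ((t * t * ‖ξ‖ ^ 2 : ℝ) : ℂ)))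
      ((Real.pi / β) ^ ((d : ℂ) / 2) * (cexp (-(Real.pi ^ 2 / β) *
        ((1 * 1 * ‖ξ‖ ^ 2 : ℝ) : ℂ)) * (-(Real.pi ^ 2 / β) *
          (((1 * 1 + 1 * 1) * ‖ξ‖ ^ 2 : ℝ) : ℂ)))) 1 := by
    have h2 : HasDerivAt (fun t : ℝ => (t * t * ‖ξ‖ ^ 2 : ℝ)) ((1 * 1 + 1 * 1) * ‖ξ‖ ^ 2) 1 :=
      ((hasDerivAt_id (1 : ℝ)).mul (hasDerivAt_id (1 : ℝ))).mul_const _
    exact ((h2.ofReal_comp.const_mul _).cexp).const_mul _
  have h := key.unique key2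
  have e1 : (∫ x : E d, F' 1 x) = ∫ x : E d, (((2 * Real.pi * ⟪ξ, x⟫ : ℝ) : ℂ) * I) *
      (cexp (-β * (‖x‖ : ℂ) ^ 2) * cexp (((2 * Real.pi * ⟪ξ, x⟫ : ℝ) : ℂ) * I)) := by
    simp only [hF', one_mul]
  rw [← e1, h]
  push_cast
  ring_nf

theorem integrable_gauss_exp {β : ℂ} (hβ : 0 < β.re) (ξ : E d) :
    Integrable fun x : E d => cexp (-β * (‖x‖ : ℂ) ^ 2) *
      cexp (((2 * Real.pi * ⟪ξ, x⟫ : ℝ) : ℂ) * I) := by
  refine (integrable_gauss (d := d) hβ).mono' (Continuous.aestronglyMeasurable (by fun_prop))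
    (Filter.Eventually.of_forall fun x => ?_)
  rw [norm_mul, Complex.norm_exp_ofReal_mul_I, mul_one, norm_gauss]

theorem integrable_gauss_exp1 {β : ℂ} (hβ : 0 < β.re) (ξ : E d) :
    Integrable fun x : E d => (((2 * Real.pi * ⟪ξ, x⟫ : ℝ) : ℂ) * I) *
      (cexp (-β * (‖x‖ : ℂ) ^ 2) * cexp (((2 * Real.pi * ⟪ξ, x⟫ : ℝ) : ℂ) * I)) := by
  refine ((integrable_mom_gauss (d := d) hβ).const_mul (2 * Real.pi * ‖ξ‖)).mono'
    (Continuous.aestronglyMeasurable (by fun_prop)) (Filter.Eventually.of_forall fun x => ?_)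
  have hp := Real.pi_pos
  rw [norm_mul, norm_mul, norm_mul, Complex.norm_I, mul_one, Complex.norm_exp_ofReal_mul_I,
    mul_one, norm_gauss, Complex.norm_real, Real.norm_eq_abs,
    abs_mul, abs_of_pos (by positivity : 0 < 2 * Real.pi)]
  have h := abs_real_inner_le_norm ξ x
  have h2 : ‖ξ‖ * ‖x‖ ≤ ‖ξ‖ * (1 + ‖x‖) := by gcongr; linarith
  calc 2 * Real.pi * |⟪ξ, x⟫| * Real.exp (-β.re * ‖x‖ ^ 2)
      ≤ 2 * Real.pi * (‖ξ‖ * (1 + ‖x‖)) * Real.exp (-β.re * ‖x‖ ^ 2) := by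
        gcongr
        exact h.trans h2
    _ = _ := by ring

/-- The equation tested against a Gaussian. -/
theorem eqn_gauss {φ : E d → ℂ} (h0 : Integrable φ)
    (h2 : Integrable fun ξ => ‖ξ‖ ^ 2 * ‖φ ξ‖) {κ : ℂ}
    (heq : ∀ y, κ * 𝓕⁻ φ y = I * lap (𝓕⁻ φ) y - (1 / 2) * eul (𝓕⁻ φ) y)
    {β : ℂ} (hβ : 0 < β.re) (z : E d) :
    ∫ ξ, (cexp (((2 * Real.pi * ⟪ξ, z⟫ : ℝ) : ℂ) * I) * φ ξ) *
      (((2 * κ + 8 * Real.pi ^ 2 * I * ((‖ξ‖ ^ 2 : ℝ) : ℂ) +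
        ((2 * Real.pi * ⟪ξ, z⟫ : ℝ) : ℂ) * I) + -2 * (Real.pi ^ 2 / β) * ((‖ξ‖ ^ 2 : ℝ) : ℂ)) *
        cexp (-(Real.pi ^ 2 / β) * ((‖ξ‖ ^ 2 : ℝ) : ℂ))) = 0 := by
  have hp := Real.pi_pos
  have hβ0 : β ≠ 0 := by
    rintro rfl
    simp at hβ
  set K : E d → E d → ℂ := fun x ξ => cexp (-β * (‖x‖ : ℂ) ^ 2) *
    (cexp (((2 * Real.pi * ⟪ξ, z + x⟫ : ℝ) : ℂ) * I) *
      ((2 * κ + 8 * Real.pi ^ 2 * I * ((‖ξ‖ ^ 2 : ℝ) : ℂ) +
        ((2 * Real.pi * ⟪ξ, z + x⟫ : ℝ) : ℂ) * I) * φ ξ)) with hK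
  have hz : ∫ x : E d, ∫ ξ : E d, K x ξ = 0 := by
    simp only [hK]
    simp_rw [integral_const_mul, eqn_fourier h0 h2 heq, mul_zero, integral_zero]
  have hKi : Integrable (Function.uncurry K) (volume.prod volume) := by
    set C : ℝ := 2 * ‖κ‖ + 8 * Real.pi ^ 2 + 2 * Real.pi * (‖z‖ + 1) with hC
    have hC0 : 0 ≤ C := by positivity
    have hi : Integrable (fun p : E d × E d => ((1 + ‖p.1‖) * Real.exp (-β.re * ‖p.1‖ ^ 2)) *
        (C * (2 * (‖φ p.2‖ + ‖p.2‖ ^ 2 * ‖φ p.2‖)))) (volume.prod volume) :=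
      (integrable_mom_gauss (d := d) hβ).mul_prod (((h0.norm.add h2).const_mul 2).const_mul C)
    refine hi.mono' ?_ (Filter.Eventually.of_forall fun p => ?_)
    · simp only [hK]
      have hφ : AEStronglyMeasurable (fun p : E d × E d => φ p.2) (volume.prod volume) :=
        h0.aestronglyMeasurable.comp_snd
      refine AEStronglyMeasurable.mul (Continuous.aestronglyMeasurable (by fun_prop)) ?_
      refine AEStronglyMeasurable.mul (Continuous.aestronglyMeasurable (by fun_prop)) ?_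
      exact AEStronglyMeasurable.mul (Continuous.aestronglyMeasurable (by fun_prop)) hφ
    · obtain ⟨x, ξ⟩ := p
      simp only [hK, Function.uncurry]
      rw [norm_mul, norm_mul, norm_mul, Complex.norm_exp_ofReal_mul_I, one_mul, norm_gauss]
      have h1 : ‖2 * κ + 8 * Real.pi ^ 2 * I * ((‖ξ‖ ^ 2 : ℝ) : ℂ) +
        ((2 * Real.pi * ⟪ξ, z + x⟫ : ℝ) : ℂ) * I‖ ≤ C * (2 * (1 + ‖ξ‖ ^ 2)) * (1 + ‖x‖) := by
        have n1 : ‖2 * κ‖ = 2 * ‖κ‖ := by simp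
        have n2 : ‖8 * Real.pi ^ 2 * I * ((‖ξ‖ ^ 2 : ℝ) : ℂ)‖ = 8 * Real.pi ^ 2 * ‖ξ‖ ^ 2 := by
          simp [abs_of_pos hp]
        have n3 : ‖((2 * Real.pi * ⟪ξ, z + x⟫ : ℝ) : ℂ) * I‖ ≤
            2 * Real.pi * (‖ξ‖ * (‖z‖ + ‖x‖)) := by
          rw [norm_mul, Complex.norm_I, mul_one, Complex.norm_real, Real.norm_eq_abs,
            abs_mul, abs_of_pos (by positivity : 0 < 2 * Real.pi)]
          have h := abs_real_inner_le_norm ξ (z + x)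
          have h' := norm_add_le z x
          gcongr
          refine h.trans ?_
          gcongr
        refine (norm_add₃_le).trans ?_
        rw [n1, n2]
        refine (add_le_add_right n3 _).trans ?_
        have q1 : ‖ξ‖ ≤ 1 + ‖ξ‖ ^ 2 := by nlinarith [sq_nonneg (‖ξ‖ - 1), norm_nonneg ξ]
        have q2 : (0 : ℝ) ≤ ‖ξ‖ ^ 2 := by positivity
        have q3 : (0 : ℝ) ≤ ‖x‖ := norm_nonneg x
        have q4 : (0 : ℝ) ≤ ‖z‖ := norm_nonneg z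
        have q5 : (0 : ℝ) ≤ ‖κ‖ := norm_nonneg κ
        have a1 : 2 * ‖κ‖ ≤ 2 * ‖κ‖ * ((1 + ‖ξ‖ ^ 2) * (1 + ‖x‖)) := by
          have : (1 : ℝ) ≤ (1 + ‖ξ‖ ^ 2) * (1 + ‖x‖) := by nlinarith [mul_nonneg q2 q3]
          nlinarith
        have a2 : 8 * Real.pi ^ 2 * ‖ξ‖ ^ 2 ≤ 8 * Real.pi ^ 2 * ((1 + ‖ξ‖ ^ 2) * (1 + ‖x‖)) := by
          gcongr
          nlinarith [mul_nonneg q2 q3]
        have a3 : 2 * Real.pi * (‖ξ‖ * (‖z‖ + ‖x‖)) ≤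
            2 * Real.pi * (‖z‖ + 1) * ((1 + ‖ξ‖ ^ 2) * (1 + ‖x‖)) := by
          have : ‖ξ‖ * (‖z‖ + ‖x‖) ≤ (‖z‖ + 1) * ((1 + ‖ξ‖ ^ 2) * (1 + ‖x‖)) := by
            have : ‖z‖ + ‖x‖ ≤ (‖z‖ + 1) * (1 + ‖x‖) := by nlinarith [mul_nonneg q4 q3]
            calc ‖ξ‖ * (‖z‖ + ‖x‖) ≤ (1 + ‖ξ‖ ^ 2) * ((‖z‖ + 1) * (1 + ‖x‖)) := by gcongr
              _ = _ := by ring
          calc 2 * Real.pi * (‖ξ‖ * (‖z‖ + ‖x‖)) ≤
              2 * Real.pi * ((‖z‖ + 1) * ((1 + ‖ξ‖ ^ 2) * (1 + ‖x‖))) := by gcongr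
            _ = _ := by ring
        have a4 : 0 ≤ C * ((1 + ‖ξ‖ ^ 2) * (1 + ‖x‖)) := by positivity
        calc 2 * ‖κ‖ + 8 * Real.pi ^ 2 * ‖ξ‖ ^ 2 + 2 * Real.pi * (‖ξ‖ * (‖z‖ + ‖x‖))
            ≤ C * ((1 + ‖ξ‖ ^ 2) * (1 + ‖x‖)) := by
              rw [hC]
              linarith
          _ ≤ C * (2 * (1 + ‖ξ‖ ^ 2)) * (1 + ‖x‖) := by linarith
      have q6 : 0 ≤ ‖φ ξ‖ := norm_nonneg _
      have q7 : 0 ≤ Real.exp (-β.re * ‖x‖ ^ 2) := (Real.exp_pos _).le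
      calc Real.exp (-β.re * ‖x‖ ^ 2) * (‖2 * κ + 8 * Real.pi ^ 2 * I * ((‖ξ‖ ^ 2 : ℝ) : ℂ) +
          ((2 * Real.pi * ⟪ξ, z + x⟫ : ℝ) : ℂ) * I‖ * ‖φ ξ‖)
          ≤ Real.exp (-β.re * ‖x‖ ^ 2) * (C * (2 * (1 + ‖ξ‖ ^ 2)) * (1 + ‖x‖) * ‖φ ξ‖) := by
            gcongr
        _ = _ := by ring
  rw [integral_integral_swap hKi] at hz
  have hN : ((Real.pi / β : ℂ)) ^ ((d : ℂ) / 2) ≠ 0 := by
    rw [Complex.cpow_def_of_ne_zero (div_ne_zero (by exact_mod_cast hp.ne') hβ0)]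
    exact Complex.exp_ne_zero _
  have hin : ∀ ξ : E d, ∫ x : E d, K x ξ = (Real.pi / β) ^ ((d : ℂ) / 2) *
      ((cexp (((2 * Real.pi * ⟪ξ, z⟫ : ℝ) : ℂ) * I) * φ ξ) *
      (((2 * κ + 8 * Real.pi ^ 2 * I * ((‖ξ‖ ^ 2 : ℝ) : ℂ) +
        ((2 * Real.pi * ⟪ξ, z⟫ : ℝ) : ℂ) * I) + -2 * (Real.pi ^ 2 / β) * ((‖ξ‖ ^ 2 : ℝ) : ℂ)) *
        cexp (-(Real.pi ^ 2 / β) * ((‖ξ‖ ^ 2 : ℝ) : ℂ)))) := by
    intro ξ
    have g0 := gauss0 hβ 1 ξ
    simp only [one_mul] at g0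
    have g1 := gauss1 hβ ξ
    have e : ∀ x : E d, K x ξ = (cexp (((2 * Real.pi * ⟪ξ, z⟫ : ℝ) : ℂ) * I) * φ ξ) *
        ((2 * κ + 8 * Real.pi ^ 2 * I * ((‖ξ‖ ^ 2 : ℝ) : ℂ) +
        ((2 * Real.pi * ⟪ξ, z⟫ : ℝ) : ℂ) * I) * (cexp (-β * (‖x‖ : ℂ) ^ 2) *
          cexp (((2 * Real.pi * ⟪ξ, x⟫ : ℝ) : ℂ) * I)) +
        (((2 * Real.pi * ⟪ξ, x⟫ : ℝ) : ℂ) * I) * (cexp (-β * (‖x‖ : ℂ) ^ 2) *
          cexp (((2 * Real.pi * ⟪ξ, x⟫ : ℝ) : ℂ) * I))) := fun x => by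
      simp only [hK]
      have e1 : cexp (((2 * Real.pi * ⟪ξ, z + x⟫ : ℝ) : ℂ) * I) =
          cexp (((2 * Real.pi * ⟪ξ, z⟫ : ℝ) : ℂ) * I) *
            cexp (((2 * Real.pi * ⟪ξ, x⟫ : ℝ) : ℂ) * I) := by
        rw [← Complex.exp_add, inner_add_right]
        congr 1
        push_cast
        ring
      rw [e1, inner_add_right]
      push_cast
      ring
    simp_rw [e]
    rw [integral_const_mul, integral_add ((integrable_gauss_exp hβ ξ).const_mul _)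
      (integrable_gauss_exp1 hβ ξ), integral_const_mul, g0, g1]
    ring
  simp_rw [hin] at hz
  rw [integral_const_mul] at hz
  exact (mul_eq_zero.mp hz).resolve_left hN

/-- The time dependent Gaussian exponent. -/
noncomputable def bb (ε s : ℝ) : ℂ :=
  4 * Real.pi ^ 2 * I + ((ε : ℂ) - 4 * Real.pi ^ 2 * I) * ((Real.exp (2 * s) : ℝ) : ℂ)

theorem bb_re (ε s : ℝ) : (bb ε s).re = ε * Real.exp (2 * s) := by
  unfold bb
  rw [Complex.add_re, Complex.re_mul_ofReal, Complex.sub_re, Complex.ofReal_re]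
  have e : (4 * (Real.pi : ℂ) ^ 2 * I).re = 0 := by
    have e2 : (4 * (Real.pi : ℂ) ^ 2 * I) = ((4 * Real.pi ^ 2 : ℝ) : ℂ) * I := by
      push_cast
      ring
    rw [e2, Complex.re_ofReal_mul, Complex.I_re, mul_zero]
  rw [e]
  ring

theorem norm_bb_le {ε : ℝ} (hε : 0 ≤ ε) (s : ℝ) :
    ‖bb ε s - 4 * Real.pi ^ 2 * I‖ ≤ (ε + 4 * Real.pi ^ 2) * Real.exp (2 * s) := by
  unfold bb
  rw [add_sub_cancel_left, norm_mul, Complex.norm_real, Real.norm_of_nonneg (Real.exp_pos _).le]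
  gcongr
  refine (norm_sub_le _ _).trans ?_
  rw [Complex.norm_real, Real.norm_of_nonneg hε]
  simp [abs_of_pos Real.pi_pos]

theorem hasDerivAt_bb (ε s : ℝ) :
    HasDerivAt (bb ε) (2 * (bb ε s - 4 * Real.pi ^ 2 * I)) s := by
  have h1 : HasDerivAt (fun s : ℝ => Real.exp (2 * s)) (Real.exp (2 * s) * 2) s := by
    have h := ((hasDerivAt_id s).const_mul 2).exp
    simpa using h
  have h2 := (h1.ofReal_comp.const_mul ((ε : ℂ) - 4 * Real.pi ^ 2 * I)).const_add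
    (4 * Real.pi ^ 2 * I)
  refine h2.congr_deriv ?_
  unfold bb
  push_cast
  ring

/-- The conserved quantity. -/
noncomputable def AA (φ : E d → ℂ) (κ : ℂ) (z : E d) (ε s : ℝ) : ℂ :=
  ∫ ξ, cexp (2 * κ * s) * ((cexp (((2 * Real.pi * (Real.exp s * ⟪ξ, z⟫) : ℝ) : ℂ) * I) * φ ξ) *
    cexp (-(bb ε s) * ((‖ξ‖ ^ 2 : ℝ) : ℂ)))

theorem norm_exp_bb {ε : ℝ} (hε : 0 ≤ ε) (s : ℝ) (ξ : E d) :
    ‖cexp (-(bb ε s) * ((‖ξ‖ ^ 2 : ℝ) : ℂ))‖ ≤ 1 := by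
  rw [Complex.norm_exp, Complex.re_mul_ofReal, Complex.neg_re, bb_re]
  rw [← Real.exp_zero]
  apply Real.exp_le_exp.mpr
  have : 0 ≤ ε * Real.exp (2 * s) * ‖ξ‖ ^ 2 := by positivity
  linarith

theorem norm_AA_le {φ : E d → ℂ} (h0 : Integrable φ) (κ : ℂ) (z : E d) {ε : ℝ} (hε : 0 ≤ ε)
    (s : ℝ) : ‖AA φ κ z ε s‖ ≤ Real.exp (2 * κ.re * s) * ∫ ξ, ‖φ ξ‖ := by
  unfold AA
  rw [← integral_const_mul]
  refine norm_integral_le_of_norm_le (h0.norm.const_mul _)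
    (Filter.Eventually.of_forall fun ξ => ?_)
  rw [norm_mul, norm_mul, norm_mul, Complex.norm_exp_ofReal_mul_I, one_mul]
  have e : ‖cexp (2 * κ * s)‖ = Real.exp (2 * κ.re * s) := by
    rw [Complex.norm_exp]
    congr 1
    rw [Complex.re_mul_ofReal]
    simp
  rw [e]
  have h := norm_exp_bb hε s ξ
  have h' : ‖φ ξ‖ * ‖cexp (-(bb ε s) * ((‖ξ‖ ^ 2 : ℝ) : ℂ))‖ ≤ ‖φ ξ‖ := by
    nlinarith [norm_nonneg (φ ξ)]
  gcongr

theorem hasDerivAt_AA {φ : E d → ℂ} (h0 : Integrable φ)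
    (h2 : Integrable fun ξ => ‖ξ‖ ^ 2 * ‖φ ξ‖) {κ : ℂ}
    (heq : ∀ y, κ * 𝓕⁻ φ y = I * lap (𝓕⁻ φ) y - (1 / 2) * eul (𝓕⁻ φ) y)
    (z : E d) {ε : ℝ} (hε : 0 < ε) (s : ℝ) : HasDerivAt (AA φ κ z ε) 0 s := by
  have hp := Real.pi_pos
  set F : ℝ → E d → ℂ := fun s ξ => cexp (2 * κ * s) *
    ((cexp (((2 * Real.pi * (Real.exp s * ⟪ξ, z⟫) : ℝ) : ℂ) * I) * φ ξ) *
      cexp (-(bb ε s) * ((‖ξ‖ ^ 2 : ℝ) : ℂ))) with hF
  set F' : ℝ → E d → ℂ := fun s ξ => (2 * κ + ((2 * Real.pi * (Real.exp s * ⟪ξ, z⟫) : ℝ) : ℂ) * I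
    - 2 * (bb ε s - 4 * Real.pi ^ 2 * I) * ((‖ξ‖ ^ 2 : ℝ) : ℂ)) * F s ξ with hF'
  have hFc : ∀ t, AEStronglyMeasurable (F t) volume := fun t => by
    simp only [hF]
    refine AEStronglyMeasurable.mul aestronglyMeasurable_const ?_
    refine AEStronglyMeasurable.mul ?_ (Continuous.aestronglyMeasurable (by fun_prop))
    exact AEStronglyMeasurable.mul (Continuous.aestronglyMeasurable (by fun_prop))
      h0.aestronglyMeasurable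
  have hF'c : ∀ t, AEStronglyMeasurable (F' t) volume := fun t => by
    simp only [hF']
    exact AEStronglyMeasurable.mul (Continuous.aestronglyMeasurable (by fun_prop)) (hFc t)
  have hFn : ∀ t ξ, ‖F t ξ‖ ≤ Real.exp (2 * ‖κ‖ * |t|) * ‖φ ξ‖ := fun t ξ => by
    simp only [hF]
    rw [norm_mul, norm_mul, norm_mul, Complex.norm_exp_ofReal_mul_I, one_mul]
    have e : ‖cexp (2 * κ * t)‖ ≤ Real.exp (2 * ‖κ‖ * |t|) := by
      rw [Complex.norm_exp]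
      apply Real.exp_le_exp.mpr
      refine (Complex.re_le_norm _).trans ?_
      rw [norm_mul, norm_mul, Complex.norm_real, Real.norm_eq_abs]
      simp
    have h := norm_exp_bb hε.le t ξ
    calc ‖cexp (2 * κ * t)‖ * (‖φ ξ‖ * ‖cexp (-(bb ε t) * ((‖ξ‖ ^ 2 : ℝ) : ℂ))‖)
        ≤ Real.exp (2 * ‖κ‖ * |t|) * (‖φ ξ‖ * 1) := by gcongr
      _ = _ := by ring
  have hFi : Integrable (F s) :=
    (h0.norm.const_mul (Real.exp (2 * ‖κ‖ * |s|))).mono' (hFc s)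
      (Filter.Eventually.of_forall fun ξ => hFn s ξ)
  set T : ℝ := |s| + 1 with hT
  set M : ℝ := (2 * ‖κ‖ + 2 * Real.pi * (Real.exp T * ‖z‖) +
    2 * ((ε + 4 * Real.pi ^ 2) * Real.exp (2 * T))) * Real.exp (2 * ‖κ‖ * T) with hM
  have hb : ∀ᵐ ξ : E d, ∀ t ∈ Metric.ball s 1, ‖F' t ξ‖ ≤
      M * (2 * (‖φ ξ‖ + ‖ξ‖ ^ 2 * ‖φ ξ‖)) := by
    refine Filter.Eventually.of_forall fun ξ t ht => ?_
    have ht1 : |t| ≤ T := by
      rw [Metric.mem_ball, Real.dist_eq] at ht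
      have := abs_sub_abs_le_abs_sub t s
      rw [hT]
      linarith
    have ht2 : t ≤ T := (le_abs_self t).trans ht1
    simp only [hF']
    rw [norm_mul]
    have q1 : ‖ξ‖ ≤ 1 + ‖ξ‖ ^ 2 := by nlinarith [sq_nonneg (‖ξ‖ - 1), norm_nonneg ξ]
    have q2 : (0 : ℝ) ≤ ‖ξ‖ ^ 2 := by positivity
    have n1 : ‖2 * κ‖ = 2 * ‖κ‖ := by simp
    have n2 : ‖((2 * Real.pi * (Real.exp t * ⟪ξ, z⟫) : ℝ) : ℂ) * I‖ ≤
        2 * Real.pi * (Real.exp T * ‖z‖) * (1 + ‖ξ‖ ^ 2) := by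
      rw [norm_mul, Complex.norm_I, mul_one, Complex.norm_real, Real.norm_eq_abs,
        abs_mul, abs_of_pos (by positivity : 0 < 2 * Real.pi), abs_mul,
        abs_of_pos (Real.exp_pos t)]
      have h := abs_real_inner_le_norm ξ z
      calc 2 * Real.pi * (Real.exp t * |⟪ξ, z⟫|)
          ≤ 2 * Real.pi * (Real.exp T * ((1 + ‖ξ‖ ^ 2) * ‖z‖)) := by
            gcongr
            exact h.trans (by gcongr)
        _ = _ := by ring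
    have n3 : ‖2 * (bb ε t - 4 * Real.pi ^ 2 * I) * ((‖ξ‖ ^ 2 : ℝ) : ℂ)‖ ≤
        2 * ((ε + 4 * Real.pi ^ 2) * Real.exp (2 * T)) * (1 + ‖ξ‖ ^ 2) := by
      rw [norm_mul, norm_mul, Complex.norm_real, Real.norm_of_nonneg q2]
      have h := norm_bb_le hε.le t
      have h' : (ε + 4 * Real.pi ^ 2) * Real.exp (2 * t) ≤
          (ε + 4 * Real.pi ^ 2) * Real.exp (2 * T) := by gcongr
      have n2 : ‖(2 : ℂ)‖ = 2 := by simp
      rw [n2]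
      have : ‖ξ‖ ^ 2 ≤ 1 + ‖ξ‖ ^ 2 := by linarith
      gcongr
      exact h.trans h'
    have n4 : ‖2 * κ + ((2 * Real.pi * (Real.exp t * ⟪ξ, z⟫) : ℝ) : ℂ) * I
        - 2 * (bb ε t - 4 * Real.pi ^ 2 * I) * ((‖ξ‖ ^ 2 : ℝ) : ℂ)‖ ≤
        (2 * ‖κ‖ + 2 * Real.pi * (Real.exp T * ‖z‖) +
        2 * ((ε + 4 * Real.pi ^ 2) * Real.exp (2 * T))) * (1 + ‖ξ‖ ^ 2) := by
      refine (norm_sub_le _ _).trans ((add_le_add_left (norm_add_le _ _) _).trans ?_)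
      rw [n1]
      have : 2 * ‖κ‖ ≤ 2 * ‖κ‖ * (1 + ‖ξ‖ ^ 2) := by nlinarith [norm_nonneg κ]
      nlinarith
    have n5 : ‖F t ξ‖ ≤ Real.exp (2 * ‖κ‖ * T) * ‖φ ξ‖ := by
      refine (hFn t ξ).trans ?_
      gcongr
    calc _ ≤ ((2 * ‖κ‖ + 2 * Real.pi * (Real.exp T * ‖z‖) +
        2 * ((ε + 4 * Real.pi ^ 2) * Real.exp (2 * T))) * (1 + ‖ξ‖ ^ 2)) *
          (Real.exp (2 * ‖κ‖ * T) * ‖φ ξ‖) := by gcongr
      _ = M * (‖φ ξ‖ + ‖ξ‖ ^ 2 * ‖φ ξ‖) := by rw [hM]; ring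
      _ ≤ M * (2 * (‖φ ξ‖ + ‖ξ‖ ^ 2 * ‖φ ξ‖)) := by
        have : 0 ≤ M := by positivity
        have h3 : 0 ≤ ‖φ ξ‖ + ‖ξ‖ ^ 2 * ‖φ ξ‖ := by positivity
        nlinarith [mul_nonneg this h3]
  have hd : ∀ᵐ ξ : E d, ∀ t ∈ Metric.ball s 1, HasDerivAt (fun t => F t ξ) (F' t ξ) t := by
    refine Filter.Eventually.of_forall fun ξ t _ => ?_
    have e1 : HasDerivAt (fun t : ℝ => cexp (2 * κ * t)) (cexp (2 * κ * t) * (2 * κ)) t := by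
      have h := ((Complex.ofRealCLM.hasDerivAt (x := t)).const_mul (2 * κ)).cexp
      simpa using h
    have e2 : HasDerivAt (fun t : ℝ => ((2 * Real.pi * (Real.exp t * ⟪ξ, z⟫) : ℝ) : ℂ) * I)
        (((2 * Real.pi * (Real.exp t * ⟪ξ, z⟫) : ℝ) : ℂ) * I) t := by
      have h : HasDerivAt (fun t : ℝ => (2 * Real.pi * (Real.exp t * ⟪ξ, z⟫) : ℝ))
          (2 * Real.pi * (Real.exp t * ⟪ξ, z⟫)) t :=
        ((Real.hasDerivAt_exp t).mul_const _).const_mul _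
      exact h.ofReal_comp.mul_const I
    have e3 : HasDerivAt (fun t : ℝ => -(bb ε t) * ((‖ξ‖ ^ 2 : ℝ) : ℂ))
        (-(2 * (bb ε t - 4 * Real.pi ^ 2 * I)) * ((‖ξ‖ ^ 2 : ℝ) : ℂ)) t :=
      (hasDerivAt_bb ε t).neg.mul_const _
    have h := e1.mul (((e2.cexp).mul_const (φ ξ)).mul e3.cexp)
    refine h.congr_deriv ?_
    simp only [hF', hF, Pi.mul_apply]
    ring
  have key := (hasDerivAt_integral_of_dominated_loc_of_deriv_le (μ := volume) (F := F) (F' := F')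
    (x₀ := s) (s := Metric.ball s 1) (Metric.ball_mem_nhds s one_pos)
    (Filter.Eventually.of_forall hFc) hFi (hF'c s) hb
    (((h0.norm.add h2).const_mul 2).const_mul M) hd).2
  have hbre : 0 < (bb ε s).re := by
    rw [bb_re]
    positivity
  have hb0 : bb ε s ≠ 0 := by
    intro h
    rw [h] at hbre
    simp at hbre
  have hβ : 0 < ((Real.pi ^ 2 : ℝ) / bb ε s : ℂ).re := by
    rw [Complex.div_re]
    simp only [Complex.ofReal_re, Complex.ofReal_im, zero_mul, zero_div, add_zero]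
    have : 0 < Complex.normSq (bb ε s) := Complex.normSq_pos.mpr hb0
    positivity
  have hβ' : (Real.pi : ℂ) ^ 2 / ((Real.pi ^ 2 : ℝ) / bb ε s : ℂ) = bb ε s := by
    have : (Real.pi : ℂ) ≠ 0 := by exact_mod_cast hp.ne'
    push_cast
    field_simp
  have hE := eqn_gauss h0 h2 heq hβ (Real.exp s • z)
  rw [hβ'] at hE
  have hI : ∫ ξ : E d, F' s ξ = 0 := by
    have e : ∀ ξ : E d, F' s ξ = cexp (2 * κ * s) *
      ((cexp (((2 * Real.pi * ⟪ξ, Real.exp s • z⟫ : ℝ) : ℂ) * I) * φ ξ) *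
      (((2 * κ + 8 * Real.pi ^ 2 * I * ((‖ξ‖ ^ 2 : ℝ) : ℂ) +
        ((2 * Real.pi * ⟪ξ, Real.exp s • z⟫ : ℝ) : ℂ) * I) +
          -2 * (bb ε s) * ((‖ξ‖ ^ 2 : ℝ) : ℂ)) *
        cexp (-(bb ε s) * ((‖ξ‖ ^ 2 : ℝ) : ℂ)))) := fun ξ => by
      simp only [hF', hF, inner_smul_right]
      ring
    simp_rw [e]
    rw [integral_const_mul, hE, mul_zero]
  rw [hI] at key
  exact key

/-- **[X3b]** Uniqueness for the free resolvent equation. -/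
theorem free_unique {φ : E d → ℂ} (h0 : Integrable φ)
    (h2 : Integrable fun ξ => ‖ξ‖ ^ 2 * ‖φ ξ‖) {κ : ℂ} (hκ : 0 < κ.re)
    (heq : ∀ y, κ * 𝓕⁻ φ y = I * lap (𝓕⁻ φ) y - (1 / 2) * eul (𝓕⁻ φ) y) (z : E d) :
    𝓕⁻ φ z = 0 := by
  have hA : ∀ ε : ℝ, 0 < ε → AA φ κ z ε 0 = 0 := by
    intro ε hε
    have hc : ∀ s : ℝ, AA φ κ z ε s = AA φ κ z ε 0 := fun s =>
      is_const_of_deriv_eq_zero (fun t => (hasDerivAt_AA h0 h2 heq z hε t).differentiableAt)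
        (fun t => (hasDerivAt_AA h0 h2 heq z hε t).deriv) s 0
    have hlim : Filter.Tendsto (fun s : ℝ => Real.exp (2 * κ.re * s) * ∫ ξ, ‖φ ξ‖)
        Filter.atBot (nhds 0) := by
      have h1 : Filter.Tendsto (fun s : ℝ => 2 * κ.re * s) Filter.atBot Filter.atBot :=
        Filter.tendsto_id.const_mul_atBot (by positivity)
      have h := (Real.tendsto_exp_atBot.comp h1).mul_const (∫ ξ, ‖φ ξ‖)
      simpa using h
    have hle : ∀ s : ℝ, ‖AA φ κ z ε 0‖ ≤ Real.exp (2 * κ.re * s) * ∫ ξ, ‖φ ξ‖ := fun s => by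
      rw [← hc s]
      exact norm_AA_le h0 κ z hε.le s
    have : ‖AA φ κ z ε 0‖ ≤ 0 := ge_of_tendsto' hlim hle
    exact norm_le_zero_iff.mp this
  have e : ∀ ε : ℝ, AA φ κ z ε 0 = ∫ ξ, (cexp (((2 * Real.pi * ⟪ξ, z⟫ : ℝ) : ℂ) * I) * φ ξ) *
    cexp (-(ε : ℂ) * ((‖ξ‖ ^ 2 : ℝ) : ℂ)) := fun ε => by
    unfold AA bb
    refine integral_congr_ae (Filter.Eventually.of_forall fun ξ => ?_)
    simp
  have hlim : Filter.Tendsto (fun ε : ℝ => AA φ κ z ε 0) (nhdsWithin 0 (Set.Ioi 0))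
      (nhds (∫ ξ, (cexp (((2 * Real.pi * ⟪ξ, z⟫ : ℝ) : ℂ) * I) * φ ξ))) := by
    simp_rw [e]
    refine tendsto_integral_filter_of_dominated_convergence (fun ξ => ‖φ ξ‖) ?_ ?_ h0.norm ?_
    · refine Filter.Eventually.of_forall fun ε => ?_
      refine AEStronglyMeasurable.mul ?_ (Continuous.aestronglyMeasurable (by fun_prop))
      exact AEStronglyMeasurable.mul (Continuous.aestronglyMeasurable (by fun_prop))
        h0.aestronglyMeasurable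
    · filter_upwards [self_mem_nhdsWithin] with ε hε
      refine Filter.Eventually.of_forall fun ξ => ?_
      rw [norm_mul, norm_mul, Complex.norm_exp_ofReal_mul_I, one_mul]
      have h1 : ‖cexp (-(ε : ℂ) * ((‖ξ‖ ^ 2 : ℝ) : ℂ))‖ ≤ 1 := by
        rw [Complex.norm_exp, Complex.re_mul_ofReal, Complex.neg_re, Complex.ofReal_re,
          ← Real.exp_zero]
        apply Real.exp_le_exp.mpr
        have : 0 ≤ ε * ‖ξ‖ ^ 2 := mul_nonneg (le_of_lt hε) (by positivity)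
        linarith
      nlinarith [norm_nonneg (φ ξ)]
    · refine Filter.Eventually.of_forall fun ξ => ?_
      have hc : Continuous fun ε : ℝ => (cexp (((2 * Real.pi * ⟪ξ, z⟫ : ℝ) : ℂ) * I) * φ ξ) *
        cexp (-(ε : ℂ) * ((‖ξ‖ ^ 2 : ℝ) : ℂ)) := by fun_prop
      have h := (hc.tendsto 0).mono_left (nhdsWithin_le_nhds (s := Set.Ioi (0 : ℝ)))
      simpa using h
  have hz : Filter.Tendsto (fun ε : ℝ => AA φ κ z ε 0) (nhdsWithin 0 (Set.Ioi 0)) (nhds 0) := by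
    refine (tendsto_const_nhds (x := (0 : ℂ))).congr' ?_
    filter_upwards [self_mem_nhdsWithin] with ε hε
    exact (hA ε hε).symm
  rw [inv_eq]
  exact tendsto_nhds_unique hlim hz

end Vale.Agent.P139.H741
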