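import Vale.Agent.P139.H741.UPg
import Vale.Agent.P139.H311.CoreF

/-!
# Inner matching relations from `UP` (helper741)

`match_of_UP`: a solution of the (divided) linearised system on `(0, R m + η)` satisfies
`u + v = o(1)`, `u' - v' = o(1)` at `r = R m + η`, relative to its size there and to the source.
-/

open Complex MeasureTheory Set Filter Topology Vale.Agent.P139.BU

namespace Vale.Agent.P139.H741

/-! ### Linear scaling -/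

section scaling

variable (h u v : ℝ → ℂ) (c : ℂ) (r : ℝ)

theorem ev0_smul : ev0 (fun z => c * u z) r = c * ev0 u r := rfl

theorem ev1_smul {u : ℝ → ℂ} (hu : ContDiff ℝ 2 u) : ev1 (fun z => c * u z) r = c * ev1 u r := by
  unfold ev1
  rw [deriv_const_mul _ (hu.differentiable (by norm_num) _)]
  ring

theorem ev2_smul {u : ℝ → ℂ} (hu : ContDiff ℝ 2 u) : ev2 (fun z => c * u z) r = c * ev2 u r := by
  have e : deriv (fun z => c * u z) = fun z => c * deriv u z := by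
    ext z
    rw [deriv_const_mul _ (hu.differentiable (by norm_num) _)]
  unfold ev2
  rw [e, deriv_const_mul _ ((contDiff_deriv hu).differentiable (by norm_num) _)]
  ring

theorem gs_smul : gs h (fun z => c * u z) (fun z => c * v z) r = c * gs h u v r := by
  unfold gs
  rw [ev0_smul, ev0_smul]
  ring

theorem gt_smul : gt h (fun z => c * u z) (fun z => c * v z) r = c * gt h u v r := by
  unfold gt
  rw [ev0_smul, ev0_smul]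
  ring

theorem gs1_smul {u v : ℝ → ℂ} (hu : ContDiff ℝ 2 u) (hv : ContDiff ℝ 2 v) :
    gs1 h (fun z => c * u z) (fun z => c * v z) r = c * gs1 h u v r := by
  unfold gs1
  rw [ev0_smul, ev0_smul, ev1_smul _ _ hu, ev1_smul _ _ hv]
  ring

theorem gt1_smul {u v : ℝ → ℂ} (hu : ContDiff ℝ 2 u) (hv : ContDiff ℝ 2 v) :
    gt1 h (fun z => c * u z) (fun z => c * v z) r = c * gt1 h u v r := by
  unfold gt1
  rw [ev0_smul, ev0_smul, ev1_smul _ _ hu, ev1_smul _ _ hv]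
  ring

theorem gS0_smul (e1 e2 : ℝ → ℂ) :
    gS0 h (fun z => c * e1 z) (fun z => c * e2 z) r = c * gS0 h e1 e2 r := by
  unfold gS0
  ring

theorem gT0_smul (e1 e2 : ℝ → ℂ) :
    gT0 h (fun z => c * e1 z) (fun z => c * e2 z) r = c * gT0 h e1 e2 r := by
  unfold gT0
  ring

end scaling

theorem DEq.smul {d m l : ℕ} {fr : ℝ} {lam : ℂ} {h u v e1 e2 : ℝ → ℂ} {r : ℝ} (c : ℂ)
    (hu : ContDiff ℝ 2 u) (hv : ContDiff ℝ 2 v) (H : DEq d m l fr lam h u v e1 e2 r) :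
    DEq d m l fr lam h (fun z => c * u z) (fun z => c * v z) (fun z => c * e1 z)
      (fun z => c * e2 z) r := by
  obtain ⟨h1, h2⟩ := H
  constructor
  · rw [ev0_smul, ev0_smul, ev1_smul _ _ hu, ev2_smul _ _ hu]
    linear_combination c * h1
  · rw [ev0_smul, ev0_smul, ev1_smul _ _ hv, ev2_smul _ _ hv]
    linear_combination c * h2

theorem int_norm_smul (n : ℕ) (b : ℝ) (c : ℂ) (f : ℝ → ℂ) :
    ∫ r in (0 : ℝ)..b, r ^ n * ‖c * f r‖ ^ 2 = ‖c‖ ^ 2 * ∫ r in (0 : ℝ)..b, r ^ n * ‖f r‖ ^ 2 := by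
  rw [← intervalIntegral.integral_const_mul]
  refine intervalIntegral.integral_congr (fun r _ => ?_)
  simp only [norm_mul]
  ring

/-- The scaled inner hypothesis. -/
theorem scaled_inner {d m l n : ℕ} {fr b η ε1 C c0 N : ℝ} {lam : ℂ} {h u v e1 e2 : ℝ → ℂ}
    (hh : ContDiff ℝ 2 h) (hne : ∀ z : ℝ, 0 ≤ z → h z ≠ 0)
    (hn1 : n + 1 = d + 2 * l) (hn2 : 1 ≤ n) (hm1 : 1 ≤ m) (hb0 : 0 < b) (hC0 : 0 < C)
    (hc0 : 0 < c0) (hε1 : 0 < ε1) (hη : 0 < η) (hη6 : 6 * η ≤ b)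
    (G : GB n m fr h b C) (hth1b : |th1 h b| ≤ 1)
    (hμ : ‖lam + (aa m : ℂ) - (d : ℂ) / 4‖ ≤ C)
    (hco : ∀ r ∈ Icc 0 (b - 2 * η), c0 ≤ gP m h r ∧ |gV fr h r + gP m h r| ≤ ε1)
    (hu : ContDiff ℝ 2 u) (hv : ContDiff ℝ 2 v)
    (he1 : ContinuousOn e1 (Icc 0 b)) (he2 : ContinuousOn e2 (Icc 0 b))
    (hE : ∀ r ∈ Ioo 0 b, DEq d m l fr lam h u v e1 e2 r) (hN : 0 < N)
    (n1 : ‖ev0 u b‖ ≤ N) (n2 : ‖ev0 v b‖ ≤ N) (n3 : ‖ev1 u b‖ ≤ N) (n4 : ‖ev1 v b‖ ≤ N)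
    (hS : (∫ r in (0 : ℝ)..b, r ^ n * ‖gS0 h e1 e2 r‖ ^ 2) ≤ N ^ 2)
    (hT : (∫ r in (0 : ℝ)..b, r ^ n * ‖gT0 h e1 e2 r‖ ^ 2) ≤ (ε1 * N) ^ 2)
    {c : ℂ} (hcn : ‖c‖ = 1 / (4 * N)) :
    H311.InnerHyp n b (2 * m + 1) (gP m h) (gV fr h) (gw h) (gdel n h)
      (lam + aa m - (d : ℂ) / 4) (gs h (fun z => c * u z) (fun z => c * v z))
      (gt h (fun z => c * u z) (fun z => c * v z)) (gs1 h (fun z => c * u z) (fun z => c * v z))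
      (gt1 h (fun z => c * u z) (fun z => c * v z)) (gS0 h (fun z => c * e1 z) (fun z => c * e2 z))
      (gT0 h (fun z => c * e1 z) (fun z => c * e2 z)) C c0 ε1 η := by
  have hsys := gsys hh hne (R2 := b) (ω := fr) (lam := lam) hn1 hn2 hm1 hb0
    (contDiff_const.mul hu) (contDiff_const.mul hv) (continuousOn_const.mul he1)
    (continuousOn_const.mul he2) (fun r hr => (hE r hr).smul c hu hv)
  have s1 : ‖gs h u v b‖ ≤ 4 * N := (norm_gs_le h u v b).trans (by linarith)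
  have s2 : ‖gt h u v b‖ ≤ 4 * N := (norm_gt_le h u v b).trans (by linarith)
  have e00 : ‖ev0 u b‖ + ‖ev0 v b‖ ≤ 2 * N := by linarith
  have e01 : |th1 h b| * (‖ev0 u b‖ + ‖ev0 v b‖) ≤ 1 * (2 * N) := by
    gcongr
  have s3 : ‖gs1 h u v b‖ ≤ 4 * N := (norm_gs1_le h u v b).trans (by linarith)
  have s4 : ‖gt1 h u v b‖ ≤ 4 * N := (norm_gt1_le h u v b).trans (by linarith)
  have sc : ∀ x : ℂ, ‖x‖ ≤ 4 * N → ‖c * x‖ ≤ 1 := by
    intro x hx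
    rw [norm_mul, hcn]
    calc 1 / (4 * N) * ‖x‖ ≤ 1 / (4 * N) * (4 * N) := by gcongr
      _ = 1 := by field_simp
  refine ⟨hsys, by positivity, hC0, hc0, hε1.le, hη, hη6, G.V, G.P0, G.P1, G.w, G.δ,
    hμ, ?_, ?_, ?_, ?_, ?_, ?_, ?_, ?_⟩
  · intro r hr
    exact (hco r hr).1
  · intro r hr
    exact (hco r hr).2
  · rw [gs_smul]
    exact sc _ s1
  · rw [gt_smul]
    exact sc _ s2
  · rw [gs1_smul h c b hu hv]
    exact sc _ s3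
  · rw [gt1_smul h c b hu hv]
    exact sc _ s4
  · simp_rw [gS0_smul]
    rw [int_norm_smul, hcn]
    calc (1 / (4 * N)) ^ 2 * _ ≤ (1 / (4 * N)) ^ 2 * N ^ 2 := by gcongr
      _ = 1 / 16 := by field_simp; norm_num
      _ ≤ 1 := by norm_num
  · simp_rw [gT0_smul]
    rw [int_norm_smul, hcn]
    calc (1 / (4 * N)) ^ 2 * _ ≤ (1 / (4 * N)) ^ 2 * (ε1 * N) ^ 2 := by gcongr
      _ = ε1 ^ 2 * (1 / 16) := by field_simp; norm_num
      _ ≤ ε1 ^ 2 := by nlinarith [sq_nonneg ε1]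

theorem unscale_norm {c x : ℂ} {N K : ℝ} (hN : 0 < N) (hcn : ‖c‖ = 1 / (4 * N))
    (hx : ‖c * x‖ ^ 2 ≤ K) : ‖x‖ ^ 2 ≤ K * (16 * N ^ 2) := by
  rw [norm_mul, hcn] at hx
  have : ‖x‖ ^ 2 = (1 / (4 * N) * ‖x‖) ^ 2 * (16 * N ^ 2) := by
    field_simp
    norm_num
  rw [this]
  gcongr

theorem unscale_int {n : ℕ} {b : ℝ} {c : ℂ} {f : ℝ → ℂ} {N K : ℝ} (hN : 0 < N)
    (hcn : ‖c‖ = 1 / (4 * N)) (hx : ∫ r in (0 : ℝ)..b, r ^ n * ‖c * f r‖ ^ 2 ≤ K) :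
    ∫ r in (0 : ℝ)..b, r ^ n * ‖f r‖ ^ 2 ≤ K * (16 * N ^ 2) := by
  rw [int_norm_smul, hcn] at hx
  have h16 : (1 / (4 * N)) ^ 2 * (16 * N ^ 2) = 1 := by
    field_simp
    norm_num
  have h2 := mul_le_mul_of_nonneg_right hx (show (0 : ℝ) ≤ 16 * N ^ 2 by positivity)
  calc _ = (1 / (4 * N)) ^ 2 * (16 * N ^ 2) * ∫ r in (0 : ℝ)..b, r ^ n * ‖f r‖ ^ 2 := by
        rw [h16, one_mul]
    _ = (1 / (4 * N)) ^ 2 * (∫ r in (0 : ℝ)..b, r ^ n * ‖f r‖ ^ 2) * (16 * N ^ 2) := by ring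
    _ ≤ _ := h2

/-- Final step: from small `s`, `t'`, phase to the matching relations. -/
theorem match_final {h u v : ℝ → ℂ} {b N ε0 : ℝ} (hN : 0 ≤ N)
    (p3 : ‖gs h u v b‖ ≤ ε0 * N) (p4 : ‖gt1 h u v b‖ ≤ ε0 * N)
    (hth1 : |th1 h b| ≤ ε0) (hth : |th h b| ≤ ε0)
    (n1 : ‖ev0 u b‖ ≤ N) (n2 : ‖ev0 v b‖ ≤ N) (n3 : ‖ev1 u b‖ ≤ N) (n4 : ‖ev1 v b‖ ≤ N) :
    ‖ev0 u b + ev0 v b‖ ≤ (16 * ε0) * N ∧ ‖ev1 u b - ev1 v b‖ ≤ (16 * ε0) * N := by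
  have r1 := norm_gs_sub h u v b
  have r2 := norm_gt1_sub h u v b
  have hε0 : 0 ≤ ε0 := (abs_nonneg _).trans hth
  have hεN : 0 ≤ ε0 * N := by positivity
  have x1 : |th h b| * (‖ev0 u b‖ + ‖ev0 v b‖) ≤ ε0 * (N + N) := by gcongr
  have x2 : |th h b| * (‖ev1 u b‖ + ‖ev1 v b‖) ≤ ε0 * (N + N) := by gcongr
  have x3 : |th1 h b| * (‖ev0 u b‖ + ‖ev0 v b‖) ≤ ε0 * (N + N) := by gcongr
  constructor
  · have : ‖ev0 u b + ev0 v b‖ ≤ ‖gs h u v b‖ + ‖gs h u v b - (ev0 u b + ev0 v b)‖ := by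
      have e : ev0 u b + ev0 v b = gs h u v b - (gs h u v b - (ev0 u b + ev0 v b)) := by ring
      conv_lhs => rw [e]
      exact norm_sub_le _ _
    linarith
  · have : ‖ev1 u b - ev1 v b‖ ≤ ‖gt1 h u v b‖ + ‖gt1 h u v b - (ev1 u b - ev1 v b)‖ := by
      have e : ev1 u b - ev1 v b = gt1 h u v b - (gt1 h u v b - (ev1 u b - ev1 v b)) := by ring
      conv_lhs => rw [e]
      exact norm_sub_le _ _
    linarith

theorem mu_bound {d m : ℕ} {lam : ℂ} {L0 : ℝ} (hm1 : 1 ≤ m) (hlam : ‖lam‖ ≤ L0) :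
    ‖lam + (aa m : ℂ) - (d : ℂ) / 4‖ ≤ max 0 L0 + 1 + (d : ℝ) := by
  have hmr : (1 : ℝ) ≤ m := by exact_mod_cast hm1
  have h1 : ‖(aa m : ℂ)‖ ≤ 1 := by
    rw [Complex.norm_real, Real.norm_of_nonneg (by unfold aa; positivity)]
    unfold aa
    rw [div_le_one (by positivity)]
    linarith
  have h2 : ‖(d : ℂ) / 4‖ ≤ d := by
    rw [norm_div, Complex.norm_natCast]
    have : (0 : ℝ) ≤ d := Nat.cast_nonneg d
    have h4 : ‖(4 : ℂ)‖ = 4 := by simp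
    rw [h4]
    linarith
  have h3 : ‖lam‖ ≤ max 0 L0 := hlam.trans (le_max_right _ _)
  calc ‖lam + (aa m : ℂ) - (d : ℂ) / 4‖ ≤ ‖lam‖ + ‖(aa m : ℂ)‖ + ‖(d : ℂ) / 4‖ :=
        (norm_sub_le _ _).trans (add_le_add_left (norm_add_le _ _) _)
    _ ≤ max 0 L0 + 1 + d := by linarith

theorem tendsto_inv_q {η : ℝ} (hη : 0 < η) :
    Tendsto (fun m : ℕ => 1 / (η * (2 * (m : ℝ) + 1))) atTop (𝓝 0) := by
  have h1 : Tendsto (fun m : ℕ => η * (2 * (m : ℝ) + 1)) atTop atTop := by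
    refine Tendsto.const_mul_atTop hη ?_
    exact tendsto_atTop_add_const_right _ _
      (tendsto_natCast_atTop_atTop.const_mul_atTop (by norm_num))
  exact h1.inv_tendsto_atTop.congr (fun m => (one_div _).symm)

theorem three_le {M ε2 a1 a2 a3 : ℝ} (hM : 0 < M) (h1 : a1 ≤ ε2 / (3 * M))
    (h2 : a2 ≤ ε2 / (3 * M)) (h3 : a3 ≤ ε2 / (3 * M)) : M * (a1 + (a2 + a3)) ≤ ε2 := by
  have e : M * (ε2 / (3 * M) + (ε2 / (3 * M) + ε2 / (3 * M))) = ε2 := by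
    field_simp
    norm_num
  rw [← e]
  gcongr

/-- **Matching relations.** -/
theorem match_of_UP {d : ℕ} {B : Set (ℝ × ℝ)} {m0 : ℕ} {w R : ℕ → ℝ} {q : ℕ → ℝ → ℂ}
    (U : UP d B m0 w R q) (hd : 2 ≤ d) (l : ℕ) (L0 : ℝ) :
    ∃ M > 0, ∀ ε > 0, ∃ η1 > 0, ∀ η, 0 < η → η ≤ η1 → ∃ ε1 > 0, ∃ m1, ∀ m, m1 ≤ m →
      ∀ h, PData (q m) h → ∀ lam : ℂ, ‖lam‖ ≤ L0 → ∀ u v e1 e2 : ℝ → ℂ,
      ContDiff ℝ 2 u → ContDiff ℝ 2 v →
      ContinuousOn e1 (Icc 0 (R m + η)) → ContinuousOn e2 (Icc 0 (R m + η)) →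
      (∀ r ∈ Ioo 0 (R m + η), DEq d m l (w m) lam h u v e1 e2 r) →
      ∀ N : ℝ, 0 < N → ‖ev0 u (R m + η)‖ ≤ N → ‖ev0 v (R m + η)‖ ≤ N →
      ‖ev1 u (R m + η)‖ ≤ N → ‖ev1 v (R m + η)‖ ≤ N →
      (∫ r in (0 : ℝ)..(R m + η), r ^ (d + 2 * l - 1) * ‖gS0 h e1 e2 r‖ ^ 2) ≤ N ^ 2 →
      (∫ r in (0 : ℝ)..(R m + η), r ^ (d + 2 * l - 1) * ‖gT0 h e1 e2 r‖ ^ 2) ≤ (ε1 * N) ^ 2 →
      (‖ev0 u (R m + η) + ev0 v (R m + η)‖ ≤ ε * N ∧
        ‖ev1 u (R m + η) - ev1 v (R m + η)‖ ≤ ε * N) ∧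
      (∫ r in (0 : ℝ)..(R m + η), r ^ (d + 2 * l - 1) * ‖gs h u v r‖ ^ 2) ≤ (ε * N) ^ 2 ∧
      (∫ r in (0 : ℝ)..(R m + η), r ^ (d + 2 * l - 1) * ‖gt h u v r‖ ^ 2) ≤ M * N ^ 2 ∧
      (∫ r in (0 : ℝ)..(R m + η), r ^ (d + 2 * l - 1) * ‖gs1 h u v r‖ ^ 2) ≤ M * N ^ 2 ∧
      (∫ r in (0 : ℝ)..(R m + η), r ^ (d + 2 * l - 1) * ‖gt1 h u v r‖ ^ 2) ≤ M * N ^ 2 := by
  obtain ⟨n, hn⟩ : ∃ n, n = d + 2 * l - 1 := ⟨_, rfl⟩
  rw [← hn]
  have hn1 : n + 1 = d + 2 * l := by omega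
  have hn2 : 1 ≤ n := by omega
  obtain ⟨R1, hR1, R2, hR⟩ := U.Rbd
  obtain ⟨X, hX⟩ : ∃ X : ℝ, X = max 1 R2 := ⟨_, rfl⟩
  have hX1 : 1 ≤ X := by rw [hX]; exact le_max_left _ _
  obtain ⟨C1, hC1, m2, hGB⟩ := exists_GB U n (b := X + 1) (by linarith)
  obtain ⟨c0, hc0, hcore⟩ := core_small U
  obtain ⟨C, hC⟩ : ∃ C : ℝ, C = max C1 (max 0 L0 + 1 + (d : ℝ)) := ⟨_, rfl⟩
  have hCC1 : C1 ≤ C := by rw [hC]; exact le_max_left _ _
  have hCμ : max 0 L0 + 1 + (d : ℝ) ≤ C := by rw [hC]; exact le_max_right _ _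
  have hC0 : 0 < C := lt_of_lt_of_le hC1 hCC1
  obtain ⟨M, hM, κ0, hκ0, q0, hq0, hin⟩ := H311.InnerHyp.inner_bound n (C := C) (c0 := c0)
    (Rm := R1) (RM := X + 1) hC0 hc0 hR1
  refine ⟨16 * M, by linarith, ?_⟩
  intro ε hε
  obtain ⟨ε0, hε0⟩ : ∃ ε0 : ℝ, ε0 = min ε 1 / 16 := ⟨_, rfl⟩
  have hmε : 0 < min ε 1 := lt_min hε one_pos
  have hε00 : 0 < ε0 := by rw [hε0]; positivity
  have hε01 : ε0 ≤ 1 := by
    have : min ε 1 ≤ 1 := min_le_right _ _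
    rw [hε0]
    linarith
  have hε0ε : 16 * ε0 ≤ ε := by
    have : min ε 1 ≤ ε := min_le_left _ _
    rw [hε0]
    linarith
  obtain ⟨ε2, hε2⟩ : ∃ ε2 : ℝ, ε2 = ε0 ^ 2 / 16 := ⟨_, rfl⟩
  have hε20 : 0 < ε2 := by rw [hε2]; positivity
  obtain ⟨η2, hη2, m3, hph⟩ := phase_small U ε0 hε00
  obtain ⟨ζ, hζ⟩ : ∃ ζ : ℝ, ζ = ε2 / (3 * M) := ⟨_, rfl⟩
  have hζ0 : 0 < ζ := by rw [hζ]; positivity
  refine ⟨min (min η2 1) (min κ0 (min (R1 / 6) ζ)),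
    lt_min (lt_min hη2 one_pos) (lt_min hκ0 (lt_min (by linarith) hζ0)), ?_⟩
  intro η hη hηle
  have b1 : η ≤ η2 := hηle.trans ((min_le_left _ _).trans (min_le_left _ _))
  have b2 : η ≤ 1 := hηle.trans ((min_le_left _ _).trans (min_le_right _ _))
  have b3 : η ≤ κ0 := hηle.trans ((min_le_right _ _).trans (min_le_left _ _))
  have b4 : η ≤ R1 / 6 :=
    hηle.trans ((min_le_right _ _).trans ((min_le_right _ _).trans (min_le_left _ _)))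
  have b5 : η ≤ ζ :=
    hηle.trans ((min_le_right _ _).trans ((min_le_right _ _).trans (min_le_right _ _)))
  obtain ⟨ε1, hε1⟩ : ∃ ε1 : ℝ, ε1 = min κ0 ζ := ⟨_, rfl⟩
  have hε10 : 0 < ε1 := by rw [hε1]; exact lt_min hκ0 hζ0
  have hε1κ : ε1 ≤ κ0 := by rw [hε1]; exact min_le_left _ _
  have hε1ζ : ε1 ≤ ζ := by rw [hε1]; exact min_le_right _ _
  refine ⟨ε1, hε10, ?_⟩
  obtain ⟨m4, hco⟩ := hcore η hη ε1 hε10
  obtain ⟨m5, hm5⟩ := eventually_atTop.mp ((tendsto_inv_q hη).eventually (gt_mem_nhds hζ0))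
  obtain ⟨m6, hm6⟩ := exists_nat_ge q0
  refine ⟨max (max m0 m2) (max (max m3 m4) (max m5 m6)), ?_⟩
  intro m hm h H lam hlam u v e1 e2 hu hv he1 he2 hE N hN n1 n2 n3 n4 hS hT
  have k0 : m0 ≤ m := ((le_max_left _ _).trans (le_max_left _ _)).trans hm
  have k2 : m2 ≤ m := ((le_max_right _ _).trans (le_max_left _ _)).trans hm
  have k3 : m3 ≤ m :=
    (((le_max_left _ _).trans (le_max_left _ _)).trans (le_max_right _ _)).trans hm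
  have k4 : m4 ≤ m :=
    (((le_max_right _ _).trans (le_max_left _ _)).trans (le_max_right _ _)).trans hm
  have k5 : m5 ≤ m :=
    (((le_max_left _ _).trans (le_max_right _ _)).trans (le_max_right _ _)).trans hm
  have k6 : m6 ≤ m :=
    (((le_max_right _ _).trans (le_max_right _ _)).trans (le_max_right _ _)).trans hm
  clear hm
  have hm1 : 1 ≤ m := U.m0_pos.trans k0
  have hRm := hR m k0
  have hRX : R m ≤ X := by rw [hX]; exact hRm.2.trans (le_max_right _ _)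
  have hco' := hco m k4 h H
  have hphb := hph m k3 h H (R m + η) ⟨by linarith [hRm.1], by linarith⟩
  have G := hGB m k2 h H
  have g5 := (hm5 m k5).le
  obtain ⟨b, hb⟩ : ∃ b, b = R m + η := ⟨_, rfl⟩
  rw [← hb] at hE he1 he2 n1 n2 n3 n4 hS hT hphb ⊢
  have hb0 : 0 < b := by linarith
  have hbX : b ≤ X + 1 := by linarith
  have hbR : R1 ≤ b := by linarith [hRm.1]
  have hcn : ‖((1 / (4 * N) : ℝ) : ℂ)‖ = 1 / (4 * N) := by
    rw [Complex.norm_real, Real.norm_of_nonneg (by positivity)]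
  have hIH := scaled_inner H.hh H.hne hn1 hn2 hm1 hb0 hC0 hc0 hε10 hη (by linarith)
    (G.mono hbX hCC1) (hphb.1.trans hε01) ((mu_bound hm1 hlam).trans hCμ)
    (fun r hr => hco' r ⟨hr.1, by linarith [hr.2]⟩) hu hv he1 he2 hE hN n1 n2 n3 n4 hS hT hcn
  have hq0m : q0 ≤ 2 * (m : ℝ) + 1 := by
    have h1 : (m6 : ℝ) ≤ m := by exact_mod_cast k6
    have h2 : (0 : ℝ) ≤ m := Nat.cast_nonneg m
    linarith
  obtain ⟨f1, f2, f3, f4, f5, f6⟩ := hin b (2 * m + 1) _ _ _ _ _ _ _ _ _ _ _ ε1 η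
    hbR hbX hε1κ b3 hq0m hIH
  rw [hζ] at hε1ζ b5 g5
  have hMε := three_le hM hε1ζ b5 g5
  have hMη : M * (η + 1 / (η * (2 * (m : ℝ) + 1))) ≤ ε2 := by
    refine le_trans ?_ hMε
    have : 0 ≤ M * ε1 := by positivity
    linarith
  rw [gs_smul] at f1
  rw [gt1_smul h _ b hu hv] at f2
  simp_rw [gs_smul] at f3
  simp_rw [gt_smul] at f4
  simp_rw [gs1_smul h _ _ hu hv] at f5
  simp_rw [gt1_smul h _ _ hu hv] at f6
  have p1 : ‖gs h u v b‖ ^ 2 ≤ (ε0 * N) ^ 2 := by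
    refine (unscale_norm hN hcn (f1.trans hMη)).trans (le_of_eq ?_)
    rw [hε2]
    ring
  have p2 : ‖gt1 h u v b‖ ^ 2 ≤ (ε0 * N) ^ 2 := by
    refine (unscale_norm hN hcn (f2.trans hMε)).trans (le_of_eq ?_)
    rw [hε2]
    ring
  have hεN0 : 0 ≤ ε0 * N := by positivity
  have p3 : ‖gs h u v b‖ ≤ ε0 * N := (sq_le_sq₀ (norm_nonneg _) hεN0).mp p1
  have p4 : ‖gt1 h u v b‖ ≤ ε0 * N := (sq_le_sq₀ (norm_nonneg _) hεN0).mp p2
  obtain ⟨y1, y2⟩ := match_final hN.le p3 p4 hphb.1 hphb.2 n1 n2 n3 n4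
  have hle : (16 * ε0) * N ≤ ε * N := mul_le_mul_of_nonneg_right hε0ε hN.le
  refine ⟨⟨y1.trans hle, y2.trans hle⟩, ?_, ?_, ?_, ?_⟩
  · refine (unscale_int hN hcn (f3.trans hMη)).trans ?_
    have e : ε2 * (16 * N ^ 2) = (ε0 * N) ^ 2 := by
      rw [hε2]
      ring
    rw [e]
    have h2 : ε0 * N ≤ ε * N :=
      mul_le_mul_of_nonneg_right (le_trans (by linarith only [hε00]) hε0ε) hN.le
    exact pow_le_pow_left₀ hεN0 h2 2
  · refine (unscale_int hN hcn f4).trans (le_of_eq ?_)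
    ring
  · refine (unscale_int hN hcn f5).trans (le_of_eq ?_)
    ring
  · refine (unscale_int hN hcn f6).trans (le_of_eq ?_)
    ring

end Vale.Agent.P139.H741
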