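import Vale.Agent.P139.BU.Core

/-!
# Phase of a smooth radial profile (helper741), part of [SB2]

`h : ℝ → ℂ` smooth, `h z ≠ 0` for `z ≥ 0`; the profile is `q r = h (r ^ 2)`.
-/

open Complex MeasureTheory Set

namespace Vale.Agent.P139.H741

/-- `h (r²)`. -/
noncomputable def ev0 (h : ℝ → ℂ) (r : ℝ) : ℂ := h (r ^ 2)

/-- first derivative of `h (r²)`. -/
noncomputable def ev1 (h : ℝ → ℂ) (r : ℝ) : ℂ := 2 * (r : ℂ) * deriv h (r ^ 2)

/-- second derivative of `h (r²)`. -/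
noncomputable def ev2 (h : ℝ → ℂ) (r : ℝ) : ℂ :=
  2 * deriv h (r ^ 2) + 4 * (r : ℂ) ^ 2 * deriv (deriv h) (r ^ 2)

theorem hasDerivAt_sq (r : ℝ) : HasDerivAt (fun x : ℝ => x ^ 2) (2 * r) r := by
  simpa using hasDerivAt_pow 2 r

theorem hasDerivAt_comp_sq {h : ℝ → ℂ} (hh : Differentiable ℝ h) (r : ℝ) :
    HasDerivAt (fun x : ℝ => h (x ^ 2)) (2 * (r : ℂ) * deriv h (r ^ 2)) r := by
  have h1 := (hh (r ^ 2)).hasDerivAt.scomp r (hasDerivAt_sq r)
  refine h1.congr_deriv ?_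
  rw [Complex.real_smul]
  push_cast
  ring

theorem hasDerivAt_ev0 {h : ℝ → ℂ} (hh : ContDiff ℝ 2 h) (r : ℝ) :
    HasDerivAt (ev0 h) (ev1 h r) r :=
  hasDerivAt_comp_sq (hh.differentiable (by norm_num)) r

theorem contDiff_deriv {h : ℝ → ℂ} (hh : ContDiff ℝ 2 h) : ContDiff ℝ 1 (deriv h) := by
  have : ContDiff ℝ (1 + 1) h := by simpa [one_add_one_eq_two] using hh
  exact (contDiff_succ_iff_deriv.mp this).2.2

theorem hasDerivAt_ev1 {h : ℝ → ℂ} (hh : ContDiff ℝ 2 h) (r : ℝ) :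
    HasDerivAt (ev1 h) (ev2 h r) r := by
  have h1 := hasDerivAt_comp_sq ((contDiff_deriv hh).differentiable (by norm_num)) r
  have h2 : HasDerivAt (fun x : ℝ => 2 * (x : ℂ)) 2 r := by
    simpa using (Complex.ofRealCLM.hasDerivAt (x := r)).const_mul (2 : ℂ)
  have h3 := h2.mul h1
  refine h3.congr_deriv ?_
  unfold ev2
  ring

theorem continuous_ev0 {h : ℝ → ℂ} (hh : ContDiff ℝ 2 h) : Continuous (ev0 h) :=
  continuous_iff_continuousAt.mpr fun r => (hasDerivAt_ev0 hh r).continuousAt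

theorem continuous_ev1 {h : ℝ → ℂ} (hh : ContDiff ℝ 2 h) : Continuous (ev1 h) :=
  continuous_iff_continuousAt.mpr fun r => (hasDerivAt_ev1 hh r).continuousAt

theorem continuous_deriv_sq {h : ℝ → ℂ} (hh : ContDiff ℝ 2 h) :
    Continuous fun r : ℝ => deriv h (r ^ 2) :=
  (contDiff_deriv hh).continuous.comp (continuous_pow 2)

theorem continuous_deriv2_sq {h : ℝ → ℂ} (hh : ContDiff ℝ 2 h) :
    Continuous fun r : ℝ => deriv (deriv h) (r ^ 2) :=
  ((contDiff_deriv hh).continuous_deriv (le_refl _)).comp (continuous_pow 2)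

theorem continuous_ev2 {h : ℝ → ℂ} (hh : ContDiff ℝ 2 h) : Continuous (ev2 h) := by
  unfold ev2
  have h1 := continuous_deriv_sq hh
  have h2 := continuous_deriv2_sq hh
  fun_prop

/-- logarithmic derivative of the profile. -/
noncomputable def kq (h : ℝ → ℂ) (r : ℝ) : ℂ := ev1 h r / ev0 h r

/-- the phase. -/
noncomputable def th (h : ℝ → ℂ) (r : ℝ) : ℝ := (h 0).arg + (∫ s in (0 : ℝ)..r, kq h s).im

/-- derivative of the phase. -/
noncomputable def th1 (h : ℝ → ℂ) (r : ℝ) : ℝ := (kq h r).im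

/-- second derivative of the phase. -/
noncomputable def th2 (h : ℝ → ℂ) (r : ℝ) : ℝ := (ev2 h r / ev0 h r - kq h r ^ 2).im

/-- `θ'/(2r)`. -/
noncomputable def om (h : ℝ → ℂ) (r : ℝ) : ℝ := (deriv h (r ^ 2) / h (r ^ 2)).im

section

variable {h : ℝ → ℂ} (hh : ContDiff ℝ 2 h) (hne : ∀ z : ℝ, 0 ≤ z → h z ≠ 0)

include hne in
theorem ev0_ne (r : ℝ) : ev0 h r ≠ 0 := hne _ (sq_nonneg r)

include hh hne

theorem continuous_kq : Continuous (kq h) :=
  (continuous_ev1 hh).div (continuous_ev0 hh) (ev0_ne hne)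

theorem continuous_th1 : Continuous (th1 h) :=
  Complex.continuous_im.comp (continuous_kq hh hne)

theorem continuous_th2 : Continuous (th2 h) :=
  Complex.continuous_im.comp
    (((continuous_ev2 hh).div (continuous_ev0 hh) (ev0_ne hne)).sub
      ((continuous_kq hh hne).pow 2))

theorem continuous_om : Continuous (om h) :=
  Complex.continuous_im.comp
    ((continuous_deriv_sq hh).div (continuous_ev0 hh) (ev0_ne hne))

omit hh hne in
theorem th1_eq (r : ℝ) : th1 h r = 2 * r * om h r := by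
  unfold th1 om kq ev1 ev0
  have e : (2 * (r : ℂ) * deriv h (r ^ 2) / h (r ^ 2)) =
      ((2 * r : ℝ) : ℂ) * (deriv h (r ^ 2) / h (r ^ 2)) := by
    push_cast
    ring
  rw [e, Complex.im_ofReal_mul]

theorem hasDerivAt_int_kq (r : ℝ) :
    HasDerivAt (fun x => ∫ s in (0 : ℝ)..x, kq h s) (kq h r) r :=
  intervalIntegral.integral_hasDerivAt_right ((continuous_kq hh hne).intervalIntegrable _ _)
    ((continuous_kq hh hne).stronglyMeasurableAtFilter _ _) (continuous_kq hh hne).continuousAt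

theorem hasDerivAt_th (r : ℝ) : HasDerivAt (th h) (th1 h r) r := by
  have h1 := Complex.imCLM.hasFDerivAt.comp_hasDerivAt r (hasDerivAt_int_kq hh hne r)
  exact h1.const_add _

theorem hasDerivAt_kq (r : ℝ) :
    HasDerivAt (kq h) (ev2 h r / ev0 h r - kq h r ^ 2) r := by
  have h1 := (hasDerivAt_ev1 hh r).div (hasDerivAt_ev0 hh r) (ev0_ne hne r)
  refine h1.congr_deriv ?_
  have h0 := ev0_ne hne r
  unfold kq
  field_simp

theorem hasDerivAt_th1 (r : ℝ) : HasDerivAt (th1 h) (th2 h r) r :=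
  Complex.imCLM.hasFDerivAt.comp_hasDerivAt r (hasDerivAt_kq hh hne r)

theorem ev0_eq_exp (r : ℝ) : ev0 h r = h 0 * cexp (∫ s in (0 : ℝ)..r, kq h s) := by
  have hd : ∀ x : ℝ, HasDerivAt (fun x => ev0 h x * cexp (-∫ s in (0 : ℝ)..x, kq h s)) 0 x := by
    intro x
    have h1 := (hasDerivAt_ev0 hh x).mul (hasDerivAt_int_kq hh hne x).neg.cexp
    refine h1.congr_deriv ?_
    have h0 := ev0_ne hne x
    simp only [Pi.neg_apply]
    unfold kq
    field_simp
    ring
  have hc := is_const_of_deriv_eq_zero (fun x => (hd x).differentiableAt)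
    (fun x => (hd x).deriv) r 0
  simp only [intervalIntegral.integral_same, neg_zero, Complex.exp_zero, mul_one] at hc
  have e0 : ev0 h 0 = h 0 := by simp [ev0]
  rw [e0] at hc
  rw [← hc, mul_assoc, ← Complex.exp_add]
  simp

/-- polar decomposition of the profile. -/
theorem ev0_polar (r : ℝ) : ev0 h r = (‖ev0 h r‖ : ℂ) * cexp (I * th h r) := by
  have h1 := ev0_eq_exp hh hne r
  set A := ∫ s in (0 : ℝ)..r, kq h s with hA
  have h2 : ‖ev0 h r‖ = ‖h 0‖ * Real.exp A.re := by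
    rw [h1, norm_mul, Complex.norm_exp]
  have h3 : h 0 = (‖h 0‖ : ℂ) * cexp ((h 0).arg * I) := (Complex.norm_mul_exp_arg_mul_I (h 0)).symm
  have h4 : cexp A = cexp (A.re : ℂ) * cexp ((A.im : ℂ) * I) := by
    rw [← Complex.exp_add, Complex.re_add_im]
  rw [h2]
  conv_lhs => rw [h1, h3, h4]
  unfold th
  rw [← hA]
  push_cast
  rw [show (I * ((h 0).arg + (A.im : ℂ))) = (h 0).arg * I + A.im * I by ring, Complex.exp_add]
  ring

end

end Vale.Agent.P139.H741
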