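import Vale.Agent.P139.H741.Gauge
import Vale.Agent.P139.BU.UP

/-!
# Profile inputs of the inner estimate from `UP` (helper741)
-/

open scoped ContDiff
open Complex MeasureTheory Set Filter Topology Vale.Agent.P139.BU

namespace Vale.Agent.P139.H741

/-- A closed condition on `(0,b]` extends to `[0,b]`. -/
theorem le_on_Icc {f : ℝ → ℝ} (hf : Continuous f) {b K : ℝ} (hb : 0 < b)
    (h : ∀ r ∈ Ioc 0 b, f r ≤ K) : ∀ r ∈ Icc 0 b, f r ≤ K := by
  intro r hr
  rcases eq_or_lt_of_le hr.1 with h0 | h0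
  · rw [← h0]
    have h1 : Tendsto f (𝓝[>] 0) (𝓝 (f 0)) := (hf.tendsto 0).mono_left nhdsWithin_le_nhds
    refine le_of_tendsto h1 ?_
    filter_upwards [Ioc_mem_nhdsGT hb] with x hx
    exact h x hx
  · exact h r ⟨h0, hr.2⟩

/-- Data of one profile in terms of `h`. -/
structure PData (q : ℝ → ℂ) (h : ℝ → ℂ) : Prop where
  hh : ContDiff ℝ 2 h
  hne : ∀ z : ℝ, 0 ≤ z → h z ≠ 0
  hq : ∀ r, q r = h (r ^ 2)

namespace PData

variable {q h : ℝ → ℂ} (H : PData q h)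

include H

theorem q_eq : q = ev0 h := funext H.hq

theorem deriv_q : deriv q = ev1 h := by
  rw [H.q_eq]
  ext r
  exact (hasDerivAt_ev0 H.hh r).deriv

theorem deriv2_q : deriv (deriv q) = ev2 h := by
  rw [H.deriv_q]
  ext r
  exact (hasDerivAt_ev1 H.hh r).deriv

theorem kq_eq (r : ℝ) : kq h r = deriv q r / q r := by
  rw [H.deriv_q, H.q_eq]
  rfl

theorem th1_eq' (r : ℝ) : th1 h r = (deriv q r / q r).im := by
  rw [← H.kq_eq]
  rfl

theorem gP_eq (m : ℕ) (r : ℝ) : gP m h r = ‖q r‖ ^ (2 * m) := by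
  rw [H.q_eq]
  rfl

end PData

theorem PData.of_UP {d : ℕ} {B : Set (ℝ × ℝ)} {m0 : ℕ} {w R : ℕ → ℝ} {q : ℕ → ℝ → ℂ}
    (U : UP d B m0 w R q) {m : ℕ} (hm : m0 ≤ m) : ∃ h, ContDiff ℝ ∞ h ∧ PData (q m) h := by
  obtain ⟨h, h1, h2⟩ := U.rad m hm
  refine ⟨h, h1, ⟨by exact_mod_cast contDiff_infty.mp h1 2, ?_, h2⟩⟩
  intro z hz
  have e := h2 (Real.sqrt z)
  rw [Real.sq_sqrt hz] at e
  rw [← e]
  exact U.ne m hm _

/-- uniform bounds of the gauge coefficients for one profile. -/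
structure GB (n m : ℕ) (fr : ℝ) (h : ℝ → ℂ) (b C : ℝ) : Prop where
  th1 : ∀ r ∈ Icc 0 b, |th1 h r| ≤ C
  th2 : ∀ r ∈ Icc 0 b, |th2 h r| ≤ C
  V : ∀ r ∈ Icc 0 b, |gV fr h r| ≤ C
  P0 : ∀ r ∈ Icc 0 b, 0 ≤ gP m h r
  P1 : ∀ r ∈ Icc 0 b, gP m h r ≤ C
  w : ∀ r ∈ Icc 0 b, |r * gw h r| ≤ C
  δ : ∀ r ∈ Icc 0 b, |gdel n h r| ≤ C

theorem GB.mono {n m : ℕ} {fr : ℝ} {h : ℝ → ℂ} {b b' C C' : ℝ} (H : GB n m fr h b C)
    (hb : b' ≤ b) (hC : C ≤ C') : GB n m fr h b' C' where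
  th1 := fun r hr => (H.th1 r ⟨hr.1, hr.2.trans hb⟩).trans hC
  th2 := fun r hr => (H.th2 r ⟨hr.1, hr.2.trans hb⟩).trans hC
  V := fun r hr => (H.V r ⟨hr.1, hr.2.trans hb⟩).trans hC
  P0 := fun r hr => H.P0 r ⟨hr.1, hr.2.trans hb⟩
  P1 := fun r hr => (H.P1 r ⟨hr.1, hr.2.trans hb⟩).trans hC
  w := fun r hr => (H.w r ⟨hr.1, hr.2.trans hb⟩).trans hC
  δ := fun r hr => (H.δ r ⟨hr.1, hr.2.trans hb⟩).trans hC

theorem gb_of_bounds {q h : ℝ → ℂ} (H : PData q h) {n m : ℕ} {fr b c C : ℝ} (hb : 0 < b)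
    (hc : 0 < c) (hfr : |fr| ≤ 1)
    (hB : ∀ r ∈ Ioc (0 : ℝ) b, c ≤ ‖q r‖ ∧ ‖q r‖ ≤ C ∧ ‖deriv q r‖ ≤ C * r ∧
      ‖deriv (deriv q) r‖ ≤ C ∧ ‖q r‖ ^ (2 * m) ≤ C) :
    GB n m fr h b (C + (C / c) * b + (C / c + ((C / c) * b) ^ 2) +
      (((C / c) * b) ^ 2 + b / 2 * ((C / c) * b) + 1) + b * (1 / 2 + 2 * (C / c)) +
      (((n : ℝ) + 1) / 4 + n * (C / c))) := by
  have hbb := hB b ⟨hb, le_refl b⟩
  have hC : 0 < C := lt_of_lt_of_le hc (hbb.1.trans hbb.2.1)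
  have hD : 0 < C / c := div_pos hC hc
  set D := C / c with hDdef
  have hn : (0 : ℝ) ≤ n := Nat.cast_nonneg n
  have hk : ∀ r ∈ Ioc (0 : ℝ) b, ‖kq h r‖ ≤ D * r := by
    intro r hr
    obtain ⟨h1, h2, h3, h4, h5⟩ := hB r hr
    rw [H.kq_eq, norm_div, hDdef]
    have hr0 : 0 < r := hr.1
    rw [div_le_iff₀ (lt_of_lt_of_le hc h1)]
    calc ‖deriv q r‖ ≤ C * r := h3
      _ = C / c * r * c := by field_simp
      _ ≤ C / c * r * ‖q r‖ := by gcongr
  have hkb : ∀ r ∈ Ioc (0 : ℝ) b, ‖kq h r‖ ≤ D * b := fun r hr =>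
    (hk r hr).trans (by have := hr.2; gcongr)
  have t1 : ∀ r ∈ Ioc (0 : ℝ) b, |th1 h r| ≤ D * r := fun r hr =>
    (Complex.abs_im_le_norm _).trans (hk r hr)
  have o1 : ∀ r ∈ Ioc (0 : ℝ) b, |om h r| ≤ D / 2 := by
    intro r hr
    have h1 := t1 r hr
    rw [th1_eq, abs_mul, abs_of_pos (by have := hr.1; positivity : (0 : ℝ) < 2 * r)] at h1
    have hr0 := hr.1
    have h2 : 2 * |om h r| ≤ D := by
      by_contra hcon
      push Not at hcon
      nlinarith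
    linarith
  have q2 : ∀ r ∈ Ioc (0 : ℝ) b, ‖ev2 h r / ev0 h r‖ ≤ D := by
    intro r hr
    obtain ⟨h1, h2, h3, h4, h5⟩ := hB r hr
    rw [← H.deriv2_q, ← H.q_eq, norm_div, hDdef, div_le_iff₀ (lt_of_lt_of_le hc h1)]
    calc ‖deriv (deriv q) r‖ ≤ C := h4
      _ = C / c * c := by field_simp
      _ ≤ C / c * ‖q r‖ := by gcongr
  have t2 : ∀ r ∈ Ioc (0 : ℝ) b, |th2 h r| ≤ D + (D * b) ^ 2 := by
    intro r hr
    refine (Complex.abs_im_le_norm _).trans ((norm_sub_le _ _).trans ?_)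
    rw [norm_pow]
    have h1 := q2 r hr
    have h2 := hkb r hr
    gcongr
  have t1b : ∀ r ∈ Ioc (0 : ℝ) b, |th1 h r| ≤ D * b := fun r hr =>
    (t1 r hr).trans (by have := hr.2; gcongr)
  have hS : 0 ≤ D * b := by positivity
  have c1 := continuous_th1 H.hh H.hne
  have c2 := continuous_th2 H.hh H.hne
  have c3 := continuous_om H.hh H.hne
  have n1 : 0 ≤ D + (D * b) ^ 2 := by positivity
  have n2 : 0 ≤ (D * b) ^ 2 + b / 2 * (D * b) + 1 := by positivity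
  have n3 : 0 ≤ b * (1 / 2 + 2 * D) := by positivity
  have n4 : 0 ≤ ((n : ℝ) + 1) / 4 + n * D := by positivity
  refine ⟨?_, ?_, ?_, ?_, ?_, ?_, ?_⟩
  · refine le_on_Icc (f := fun r => |th1 h r|) c1.abs hb (fun r hr => ?_)
    have := t1b r hr
    linarith
  · refine le_on_Icc (f := fun r => |th2 h r|) c2.abs hb (fun r hr => ?_)
    have := t2 r hr
    linarith
  · refine le_on_Icc (f := fun r => |gV fr h r|) (continuous_gV H.hh H.hne fr).abs hb
      (fun r hr => ?_)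
    have h1 := t1b r hr
    have hr0 := hr.1
    have hrb := hr.2
    have h2 : |gV fr h r| ≤ (D * b) ^ 2 + b / 2 * (D * b) + 1 := by
      unfold gV
      refine (abs_sub _ _).trans ?_
      refine add_le_add ((abs_add_le _ _).trans (add_le_add ?_ ?_)) hfr
      · rw [abs_pow]
        gcongr
      · rw [abs_mul, abs_of_pos (by positivity : (0 : ℝ) < r / 2)]
        gcongr
    linarith
  · intro r _
    unfold gP
    positivity
  · refine le_on_Icc (f := fun r => gP m h r) (continuous_gP H.hh m) hb (fun r hr => ?_)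
    have := (hB r hr).2.2.2.2
    rw [H.gP_eq]
    linarith
  · refine le_on_Icc (f := fun r => |r * gw h r|)
      (continuous_id.mul (continuous_gw H.hh H.hne)).abs hb (fun r hr => ?_)
    have h1 := o1 r hr
    have hr0 := hr.1
    have hrb := hr.2
    have h2 : |r * gw h r| ≤ b * (1 / 2 + 2 * D) := by
      rw [abs_mul, abs_of_pos hr0]
      have : |gw h r| ≤ 1 / 2 + 2 * D := by
        unfold gw
        refine (abs_add_le _ _).trans ?_
        rw [abs_mul]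
        have e1 : |(1 / 2 : ℝ)| = 1 / 2 := by norm_num
        have e2 : |(4 : ℝ)| = 4 := by norm_num
        rw [e1, e2]
        linarith
      gcongr
    linarith
  · refine le_on_Icc (f := fun r => |gdel n h r|) (continuous_gdel H.hh H.hne n).abs hb
      (fun r hr => ?_)
    have h1 := o1 r hr
    have h2 := t2 r hr
    have h3 : |gdel n h r| ≤ ((n : ℝ) + 1) / 4 + n * D + (D + (D * b) ^ 2) := by
      unfold gdel
      refine (abs_add_le _ _).trans (add_le_add ((abs_add_le _ _).trans (add_le_add ?_ ?_)) h2)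
      · rw [abs_of_nonneg (by positivity)]
      · rw [abs_mul, abs_of_nonneg (by positivity : (0 : ℝ) ≤ 2 * (n : ℝ))]
        calc 2 * (n : ℝ) * |om h r| ≤ 2 * (n : ℝ) * (D / 2) := by gcongr
          _ = n * D := by ring
    linarith

/-- Uniform bounds of the gauge coefficients. -/
theorem exists_GB {d : ℕ} {B : Set (ℝ × ℝ)} {m0 : ℕ} {w R : ℕ → ℝ} {q : ℕ → ℝ → ℂ}
    (U : UP d B m0 w R q) (n : ℕ) {b : ℝ} (hb : 0 < b) :
    ∃ C > 0, ∃ m1, ∀ m, m1 ≤ m → ∀ h, PData (q m) h → GB n m (w m) h b C := by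
  obtain ⟨c, hc, C, m1, hB⟩ := U.bd b hb
  obtain ⟨w1, hw1, hw⟩ := U.wbd
  refine ⟨max 1 (C + (C / c) * b + (C / c + ((C / c) * b) ^ 2) +
      (((C / c) * b) ^ 2 + b / 2 * ((C / c) * b) + 1) + b * (1 / 2 + 2 * (C / c)) +
      (((n : ℝ) + 1) / 4 + n * (C / c))), lt_max_of_lt_left one_pos, max m0 m1, ?_⟩
  intro m hm h H
  have hm0 : m0 ≤ m := (le_max_left _ _).trans hm
  have hm1 : m1 ≤ m := (le_max_right _ _).trans hm
  have hwm := hw m hm0
  refine (gb_of_bounds H hb hc ?_ (hB m hm1)).mono (le_refl b) (le_max_right _ _)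
  rw [abs_of_pos (by linarith [hwm.1])]
  exact hwm.2

theorem tendsto_nat_div (C : ℝ) : Tendsto (fun m : ℕ => C / (m : ℝ)) atTop (𝓝 0) :=
  tendsto_const_div_atTop_nhds_zero_nat C

theorem tendsto_exp_sqrt {C η : ℝ} (hC : 0 < C) (hη : 0 < η) :
    Tendsto (fun m : ℕ => Real.exp (-(Real.sqrt m / C) * η)) atTop (𝓝 0) := by
  refine Real.tendsto_exp_atBot.comp ?_
  have h1 : Tendsto (fun m : ℕ => Real.sqrt (m : ℝ)) atTop atTop :=
    Real.tendsto_sqrt_atTop.comp tendsto_natCast_atTop_atTop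
  have h2 : Tendsto (fun m : ℕ => Real.sqrt (m : ℝ) * (η / C)) atTop atTop :=
    h1.atTop_mul_const (by positivity)
  have h3 := tendsto_neg_atTop_atBot.comp h2
  refine h3.congr (fun m => ?_)
  simp only [Function.comp]
  ring

/-- The phase derivative is small in the core. -/
theorem core_th1 {d : ℕ} {B : Set (ℝ × ℝ)} {m0 : ℕ} {w R : ℕ → ℝ} {q : ℕ → ℝ → ℂ}
    (U : UP d B m0 w R q) :
    ∃ C > 0, ∃ m1, ∀ m, m1 ≤ m → ∀ h, PData (q m) h → ∀ r ∈ Icc 0 (R m),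
      |th1 h r| ≤ C / m := by
  obtain ⟨C, hC, m1, hcore⟩ := U.core
  obtain ⟨R1, hR1, R2, hR⟩ := U.Rbd
  refine ⟨C * max 1 R2, by positivity, max m0 m1, ?_⟩
  intro m hm h H r hr
  have hm0 : m0 ≤ m := (le_max_left _ _).trans hm
  have h1 := (hcore m ((le_max_right _ _).trans hm) r hr).2.2.2
  rw [← H.th1_eq'] at h1
  refine h1.trans ?_
  have hr2 : r ≤ max 1 R2 := hr.2.trans ((hR m hm0).2.trans (le_max_right _ _))
  have hm' : (0 : ℝ) ≤ m := Nat.cast_nonneg m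
  gcongr

/-- Core facts: `P ≥ c0` and `V + P` small on `[0, R m - η]`. -/
theorem core_small {d : ℕ} {B : Set (ℝ × ℝ)} {m0 : ℕ} {w R : ℕ → ℝ} {q : ℕ → ℝ → ℂ}
    (U : UP d B m0 w R q) :
    ∃ c0 > 0, ∀ η > 0, ∀ ε > 0, ∃ m1, ∀ m, m1 ≤ m → ∀ h, PData (q m) h →
      ∀ r ∈ Icc 0 (R m - η), c0 ≤ gP m h r ∧ |gV (w m) h r + gP m h r| ≤ ε := by
  obtain ⟨w1, hw1, hw⟩ := U.wbd
  obtain ⟨C, hC, m1, hcore⟩ := U.core
  obtain ⟨C', hC', m2, hth⟩ := core_th1 U
  obtain ⟨R1, hR1, R2, hR⟩ := U.Rbd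
  refine ⟨w1 / 2, by positivity, ?_⟩
  intro η hη ε hε
  have t1 := tendsto_nat_div C
  have t2 := tendsto_exp_sqrt hC hη
  have t3 := tendsto_nat_div C'
  have hlim : Tendsto (fun m : ℕ => (C' / (m : ℝ)) ^ 2 + max 1 R2 / 2 * (C' / (m : ℝ)) +
      (C / (m : ℝ) + 2 * Real.exp (-(Real.sqrt m / C) * η))) atTop (𝓝 0) := by
    have := ((t3.pow 2).add (t3.const_mul (max 1 R2 / 2))).add (t1.add (t2.const_mul 2))
    simpa using this
  obtain ⟨m3, hm3⟩ := eventually_atTop.mp (hlim.eventually (gt_mem_nhds hε))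
  refine ⟨max (max m0 m1) (max m2 m3), ?_⟩
  intro m hm h H r hr
  have hm0 : m0 ≤ m := ((le_max_left _ _).trans (le_max_left _ _)).trans hm
  have hm1 : m1 ≤ m := ((le_max_right _ _).trans (le_max_left _ _)).trans hm
  have hm2 : m2 ≤ m := ((le_max_left _ _).trans (le_max_right _ _)).trans hm
  have hm3' : m3 ≤ m := ((le_max_right _ _).trans (le_max_right _ _)).trans hm
  have hrR : r ∈ Icc 0 (R m) := ⟨hr.1, by linarith [hr.2]⟩
  have hwm := hw m hm0
  constructor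
  · have h1 := U.above m hm0 r hrR
    rw [H.gP_eq]
    linarith
  · have h1 := hth m hm2 h H r hrR
    obtain ⟨a1, a2, -, -⟩ := hcore m hm1 r hrR
    rw [← H.gP_eq m r] at a1 a2
    have h3 := hm3 m hm3'
    have hr2 : r ≤ max 1 R2 := hrR.2.trans ((hR m hm0).2.trans (le_max_right _ _))
    have hmn : (0 : ℝ) ≤ C' / m := (abs_nonneg _).trans h1
    have b1 : |th1 h r ^ 2 + r / 2 * th1 h r| ≤ (C' / (m : ℝ)) ^ 2 +
        max 1 R2 / 2 * (C' / (m : ℝ)) := by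
      refine (abs_add_le _ _).trans (add_le_add ?_ ?_)
      · rw [abs_pow]
        gcongr
      · rw [abs_mul, abs_of_nonneg (by have := hr.1; positivity : (0 : ℝ) ≤ r / 2)]
        gcongr
    have hCm : 0 ≤ C / (m : ℝ) := by positivity
    have hexp : Real.exp (-(Real.sqrt m / C) * (R m - r)) ≤
        Real.exp (-(Real.sqrt m / C) * η) := by
      apply Real.exp_le_exp.mpr
      have h5 : η ≤ R m - r := by linarith [hr.2]
      have h6 : 0 ≤ Real.sqrt m / C := by positivity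
      nlinarith
    have hexp0 : 0 < Real.exp (-(Real.sqrt m / C) * (R m - r)) := Real.exp_pos _
    have b2 : |gP m h r - w m| ≤ C / (m : ℝ) + 2 * Real.exp (-(Real.sqrt m / C) * η) := by
      rw [abs_le]
      constructor
      · have hw0 : 0 < w m := by linarith [hwm.1]
        have hb3 : w m * (C / (m : ℝ) + 2 * Real.exp (-(Real.sqrt m / C) * (R m - r))) ≤
            1 * (C / (m : ℝ) + 2 * Real.exp (-(Real.sqrt m / C) * (R m - r))) := by
          apply mul_le_mul_of_nonneg_right hwm.2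
          positivity
        nlinarith
      · have := Real.exp_pos (-(Real.sqrt m / C) * η)
        linarith
    have e : gV (w m) h r + gP m h r = (th1 h r ^ 2 + r / 2 * th1 h r) + (gP m h r - w m) := by
      unfold gV
      ring
    rw [e]
    refine (abs_add_le _ _).trans ?_
    linarith

/-- The phase and its derivative are small up to `R m + η0`. -/
theorem phase_small {d : ℕ} {B : Set (ℝ × ℝ)} {m0 : ℕ} {w R : ℕ → ℝ} {q : ℕ → ℝ → ℂ}
    (U : UP d B m0 w R q) :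
    ∀ ε > 0, ∃ η0 > 0, ∃ m1, ∀ m, m1 ≤ m → ∀ h, PData (q m) h → ∀ r ∈ Icc 0 (R m + η0),
      |th1 h r| ≤ ε ∧ |th h r| ≤ ε := by
  obtain ⟨R1, hR1, R2, hR⟩ := U.Rbd
  set X : ℝ := max 1 R2 with hX
  have hX1 : 1 ≤ X := le_max_left _ _
  obtain ⟨C, hC, m1, hGB⟩ := exists_GB U 0 (b := X + 1) (by positivity)
  obtain ⟨C', hC', m2, hth⟩ := core_th1 U
  intro ε hε
  set ε' : ℝ := min ε (ε / (X + 1)) with hε'
  have hε'0 : 0 < ε' := lt_min hε (by positivity)
  obtain ⟨m3, hm3⟩ := eventually_atTop.mp ((tendsto_nat_div C').eventually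
    (gt_mem_nhds (half_pos hε'0)))
  refine ⟨min 1 (ε' / (2 * C)), by positivity, max (max m0 m1) (max m2 m3), ?_⟩
  intro m hm h H
  have hm0 : m0 ≤ m := ((le_max_left _ _).trans (le_max_left _ _)).trans hm
  have hm1 : m1 ≤ m := ((le_max_right _ _).trans (le_max_left _ _)).trans hm
  have hm2 : m2 ≤ m := ((le_max_left _ _).trans (le_max_right _ _)).trans hm
  have hm3' : m3 ≤ m := ((le_max_right _ _).trans (le_max_right _ _)).trans hm
  have hRm : R m ≤ X := (hR m hm0).2.trans (le_max_right _ _)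
  have hRpos : 0 < R m := U.Rpos m hm0
  have G := hGB m hm1 h H
  have hC'm : C' / (m : ℝ) < ε' / 2 := hm3 m hm3'
  have hη1 : min 1 (ε' / (2 * C)) ≤ 1 := min_le_left _ _
  have hη2 : min 1 (ε' / (2 * C)) ≤ ε' / (2 * C) := min_le_right _ _
  have key : ∀ r ∈ Icc 0 (R m + min 1 (ε' / (2 * C))), |th1 h r| ≤ ε' := by
    intro r hr
    rcases le_total r (R m) with h1 | h1
    · have := hth m hm2 h H r ⟨hr.1, h1⟩
      linarith
    · have h2 := hth m hm2 h H (R m) ⟨hRpos.le, le_refl _⟩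
      have h3 : ‖th1 h r - th1 h (R m)‖ ≤ C * ‖r - R m‖ := by
        refine (convex_Icc (R m) r).norm_image_sub_le_of_norm_hasDerivWithin_le
          (f := th1 h) (f' := th2 h) (C := C) ?_ ?_ ⟨le_refl _, h1⟩ ⟨h1, le_refl _⟩
        · intro x _
          exact (hasDerivAt_th1 H.hh H.hne x).hasDerivWithinAt
        · intro x hx
          exact G.th2 x ⟨hRpos.le.trans hx.1, by linarith [hx.2, hr.2]⟩
      rw [Real.norm_eq_abs, Real.norm_eq_abs, abs_of_nonneg (by linarith : 0 ≤ r - R m)] at h3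
      have h4 : C * (r - R m) ≤ ε' / 2 := by
        have : r - R m ≤ ε' / (2 * C) := by linarith [hr.2]
        calc C * (r - R m) ≤ C * (ε' / (2 * C)) := by gcongr
          _ = ε' / 2 := by field_simp
      have h5 := abs_sub_abs_le_abs_sub (th1 h r) (th1 h (R m))
      linarith
  intro r hr
  refine ⟨(key r hr).trans (min_le_left _ _), ?_⟩
  have h0 : th h 0 = 0 := by
    unfold th
    simp only [intervalIntegral.integral_same, Complex.zero_im, add_zero]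
    obtain ⟨q1, q2⟩ := U.q0 m hm0
    have e : h 0 = q m 0 := by
      rw [H.hq]
      simp
    rw [e, Complex.arg_eq_zero_iff]
    exact ⟨q2.le, q1⟩
  have h3 : ‖th h r - th h 0‖ ≤ ε' * ‖r - 0‖ := by
    refine (convex_Icc 0 r).norm_image_sub_le_of_norm_hasDerivWithin_le
      (f := th h) (f' := th1 h) (C := ε') ?_ ?_ ⟨le_refl _, hr.1⟩ ⟨hr.1, le_refl _⟩
    · intro x _
      exact (hasDerivAt_th H.hh H.hne x).hasDerivWithinAt
    · intro x hx
      exact key x ⟨hx.1, hx.2.trans hr.2⟩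
  rw [h0, sub_zero, sub_zero, Real.norm_eq_abs, Real.norm_eq_abs, abs_of_nonneg hr.1] at h3
  refine h3.trans ?_
  have h4 : r ≤ X + 1 := by linarith [hr.2]
  calc ε' * r ≤ (ε / (X + 1)) * (X + 1) := by
        have h5 : ε' ≤ ε / (X + 1) := min_le_right _ _
        have h6 := hr.1
        gcongr
    _ = ε := by field_simp

theorem norm_em_sub_one (h : ℝ → ℂ) (r : ℝ) : ‖em h r - 1‖ ≤ |th h r| := by
  unfold em
  rw [show -(I * (th h r : ℂ)) = I * ((-th h r : ℝ) : ℂ) by push_cast; ring]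
  refine (Real.norm_exp_I_mul_ofReal_sub_one_le).trans ?_
  rw [Real.norm_eq_abs, abs_neg]

theorem norm_ep_sub_one (h : ℝ → ℂ) (r : ℝ) : ‖ep h r - 1‖ ≤ |th h r| := by
  unfold ep
  refine (Real.norm_exp_I_mul_ofReal_sub_one_le).trans ?_
  rw [Real.norm_eq_abs]

/-- `s` versus `u + v`. -/
theorem norm_gs_sub (h u v : ℝ → ℂ) (r : ℝ) :
    ‖gs h u v r - (ev0 u r + ev0 v r)‖ ≤ |th h r| * (‖ev0 u r‖ + ‖ev0 v r‖) := by
  have e : gs h u v r - (ev0 u r + ev0 v r) = (em h r - 1) * ev0 u r + (ep h r - 1) * ev0 v r := by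
    unfold gs
    ring
  rw [e]
  refine (norm_add_le _ _).trans ?_
  rw [norm_mul, norm_mul, mul_add]
  gcongr
  · exact norm_em_sub_one h r
  · exact norm_ep_sub_one h r

/-- `t'` versus `u' - v'`. -/
theorem norm_gt1_sub (h u v : ℝ → ℂ) (r : ℝ) :
    ‖gt1 h u v r - (ev1 u r - ev1 v r)‖ ≤ |th h r| * (‖ev1 u r‖ + ‖ev1 v r‖)
      + |th1 h r| * (‖ev0 u r‖ + ‖ev0 v r‖) := by
  have e : gt1 h u v r - (ev1 u r - ev1 v r) = (em h r - 1) * ev1 u r - (ep h r - 1) * ev1 v r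
      - I * th1 h r * (em h r * ev0 u r + ep h r * ev0 v r) := by
    unfold gt1
    ring
  rw [e]
  refine (norm_sub_le _ _).trans (add_le_add ((norm_sub_le _ _).trans ?_) ?_)
  · rw [norm_mul, norm_mul, mul_add]
    gcongr
    · exact norm_em_sub_one h r
    · exact norm_ep_sub_one h r
  · rw [norm_mul, norm_mul, Complex.norm_I, one_mul, Complex.norm_real, Real.norm_eq_abs]
    gcongr
    refine (norm_add_le _ _).trans (le_of_eq ?_)
    rw [norm_mul, norm_mul, norm_em, norm_ep, one_mul, one_mul]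

end Vale.Agent.P139.H741
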