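import Vale.Agent.P139.BU.Core

/-!
# Derivatives of inverse Fourier integrals (helper741)

For a density `φ` with finite moments: `pd j`, `eul`, `lap` of `𝓕⁻ φ` are inverse Fourier
integrals of explicit densities.
-/

open scoped ComplexConjugate FourierTransform RealInnerProductSpace
open Complex MeasureTheory Vale.Agent.P139.BU

namespace Vale.Agent.P139.H741

variable {d : ℕ}

theorem inv_eq (φ : E d → ℂ) (y : E d) :
    𝓕⁻ φ y = ∫ ξ, cexp (((2 * Real.pi * ⟪ξ, y⟫ : ℝ) : ℂ) * I) * φ ξ := by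
  rw [Real.fourierInv_eq']
  simp only [smul_eq_mul]

theorem norm_inv_le (φ : E d → ℂ) (y : E d) : ‖𝓕⁻ φ y‖ ≤ ∫ ξ, ‖φ ξ‖ := by
  rw [inv_eq]
  refine (norm_integral_le_integral_norm _).trans (le_of_eq ?_)
  congr 1
  ext ξ
  rw [norm_mul, Complex.norm_exp_ofReal_mul_I, one_mul]

theorem integrable_mom1 {φ : E d → ℂ} (h0 : Integrable φ)
    (h2 : Integrable fun ξ => ‖ξ‖ ^ 2 * ‖φ ξ‖) : Integrable fun ξ => ‖ξ‖ * ‖φ ξ‖ := by
  refine (h0.norm.add h2).mono ?_ ?_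
  · exact continuous_norm.aestronglyMeasurable.mul h0.norm.aestronglyMeasurable
  · refine Filter.Eventually.of_forall fun ξ => ?_
    have h : ‖ξ‖ ≤ 1 + ‖ξ‖ ^ 2 := by nlinarith [sq_nonneg (‖ξ‖ - 1), norm_nonneg ξ]
    have hp : 0 ≤ ‖φ ξ‖ := norm_nonneg _
    simp only [Pi.add_apply, norm_mul, norm_norm]
    rw [Real.norm_of_nonneg (by positivity)]
    nlinarith

theorem hasFDerivAt_inv {φ : E d → ℂ} (h0 : Integrable φ)
    (h1 : Integrable fun ξ => ‖ξ‖ * ‖φ ξ‖) (y : E d) :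
    HasFDerivAt (𝓕⁻ φ)
      (𝓕⁻ (VectorFourier.fourierSMulRight (-innerSL ℝ (E := E d)) φ) y) y :=
  VectorFourier.hasFDerivAt_fourierIntegral (-innerSL ℝ (E := E d)) h0 h1 y

theorem fderiv_inv_apply {φ : E d → ℂ} (h0 : Integrable φ)
    (h1 : Integrable fun ξ => ‖ξ‖ * ‖φ ξ‖) (y v : E d) :
    fderiv ℝ (𝓕⁻ φ) y v = 𝓕⁻ (fun ξ => (((2 * Real.pi * ⟪ξ, v⟫ : ℝ) : ℂ) * I) * φ ξ) y := by
  rw [(hasFDerivAt_inv h0 h1 y).fderiv, Real.fourierInv_eq_fourier_neg,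
    Real.fourier_continuousLinearMap_apply, ← Real.fourierInv_eq_fourier_neg]
  · refine congrArg (fun g : E d → ℂ => 𝓕⁻ g y) ?_
    ext ξ
    have e : ((-innerSL ℝ (E := E d)) ξ) v = -⟪ξ, v⟫ := rfl
    rw [VectorFourier.fourierSMulRight_apply, e]
    simp only [smul_eq_mul, Complex.real_smul]
    push_cast
    ring
  · refine (h1.const_mul (2 * Real.pi)).mono' ?_ ?_
    · exact h0.aestronglyMeasurable.fourierSMulRight
    · refine Filter.Eventually.of_forall fun ξ => ?_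
      have e : ‖(-innerSL ℝ (E := E d)) ξ‖ = ‖ξ‖ := by
        have e2 : (-innerSL ℝ (E := E d)) ξ = -(innerSL ℝ ξ) := rfl
        rw [e2, norm_neg, innerSL_apply_norm]
      rw [VectorFourier.norm_fourierSMulRight, e, mul_assoc]

theorem eul_inv {φ : E d → ℂ} (h0 : Integrable φ)
    (h1 : Integrable fun ξ => ‖ξ‖ * ‖φ ξ‖) (y : E d) :
    eul (𝓕⁻ φ) y = 𝓕⁻ (fun ξ => (((2 * Real.pi * ⟪ξ, y⟫ : ℝ) : ℂ) * I) * φ ξ) y :=
  fderiv_inv_apply h0 h1 y y

theorem pd_inv {φ : E d → ℂ} (h0 : Integrable φ)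
    (h1 : Integrable fun ξ => ‖ξ‖ * ‖φ ξ‖) (j : Fin d) :
    pd j (𝓕⁻ φ) = 𝓕⁻ (fun ξ => (((2 * Real.pi * ξ j : ℝ) : ℂ) * I) * φ ξ) := by
  ext y
  unfold pd
  rw [fderiv_inv_apply h0 h1]
  have e : ∀ ξ : E d, ⟪ξ, EuclideanSpace.single j (1 : ℝ)⟫ = ξ j := fun ξ => by
    simp [EuclideanSpace.inner_single_right]
  simp only [e]

theorem abs_coord_le (ξ : E d) (j : Fin d) : |ξ j| ≤ ‖ξ‖ := by
  have := EuclideanSpace.norm_eq ξ
  rw [this]
  refine Real.le_sqrt_of_sq_le ?_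
  rw [sq_abs]
  have h : (ξ j) ^ 2 = ‖ξ j‖ ^ 2 := by simp
  rw [h]
  exact Finset.single_le_sum (f := fun i => ‖ξ i‖ ^ 2) (fun i _ => by positivity)
    (Finset.mem_univ j)

theorem integrable_coord {φ : E d → ℂ} (h0 : Integrable φ)
    (h1 : Integrable fun ξ => ‖ξ‖ * ‖φ ξ‖) (j : Fin d) :
    Integrable (fun ξ : E d => (((2 * Real.pi * ξ j : ℝ) : ℂ) * I) * φ ξ) := by
  refine (h1.const_mul (2 * Real.pi)).mono' ?_ ?_
  · refine AEStronglyMeasurable.mul ?_ h0.aestronglyMeasurable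
    refine Continuous.aestronglyMeasurable ?_
    fun_prop
  · refine Filter.Eventually.of_forall fun ξ => ?_
    have h := abs_coord_le ξ j
    have hp := Real.pi_pos
    rw [norm_mul, norm_mul, Complex.norm_I, mul_one, Complex.norm_real, Real.norm_eq_abs,
      abs_mul, abs_of_pos (by positivity : 0 < 2 * Real.pi), mul_assoc]
    gcongr

theorem integrable_coord_mom {φ : E d → ℂ} (h0 : Integrable φ)
    (h2 : Integrable fun ξ => ‖ξ‖ ^ 2 * ‖φ ξ‖) (j : Fin d) :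
    Integrable (fun ξ : E d => ‖ξ‖ * ‖(((2 * Real.pi * ξ j : ℝ) : ℂ) * I) * φ ξ‖) := by
  refine (h2.const_mul (2 * Real.pi)).mono' ?_ ?_
  · refine AEStronglyMeasurable.mul continuous_norm.aestronglyMeasurable ?_
    refine AEStronglyMeasurable.norm ?_
    refine AEStronglyMeasurable.mul ?_ h0.aestronglyMeasurable
    refine Continuous.aestronglyMeasurable ?_
    fun_prop
  · refine Filter.Eventually.of_forall fun ξ => ?_
    have h := abs_coord_le ξ j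
    have hp := Real.pi_pos
    rw [Real.norm_of_nonneg (by positivity), norm_mul, norm_mul, Complex.norm_I, mul_one,
      Complex.norm_real, Real.norm_eq_abs,
      abs_mul, abs_of_pos (by positivity : 0 < 2 * Real.pi)]
    calc ‖ξ‖ * (2 * Real.pi * |ξ j| * ‖φ ξ‖) ≤ ‖ξ‖ * (2 * Real.pi * ‖ξ‖ * ‖φ ξ‖) := by gcongr
      _ = 2 * Real.pi * (‖ξ‖ ^ 2 * ‖φ ξ‖) := by ring

theorem lap_inv {φ : E d → ℂ} (h0 : Integrable φ)
    (h2 : Integrable fun ξ => ‖ξ‖ ^ 2 * ‖φ ξ‖) (y : E d) :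
    lap (𝓕⁻ φ) y = 𝓕⁻ (fun ξ => -((4 * Real.pi ^ 2 * ‖ξ‖ ^ 2 : ℝ) : ℂ) * φ ξ) y := by
  have h1 := integrable_mom1 h0 h2
  unfold lap
  simp_rw [pd_inv h0 h1]
  have e : ∀ j : Fin d, pd j (𝓕⁻ (fun ξ : E d => (((2 * Real.pi * ξ j : ℝ) : ℂ) * I) * φ ξ)) y =
      𝓕⁻ (fun ξ : E d => (((2 * Real.pi * ξ j : ℝ) : ℂ) * I) *
        ((((2 * Real.pi * ξ j : ℝ) : ℂ) * I) * φ ξ)) y := fun j => by
    rw [pd_inv (integrable_coord h0 h1 j) (integrable_coord_mom h0 h2 j)]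
  simp_rw [e, inv_eq]
  rw [← integral_finsetSum]
  · refine integral_congr_ae (Filter.Eventually.of_forall fun ξ => ?_)
    have hn : ‖ξ‖ ^ 2 = ∑ j, (ξ j) ^ 2 := by
      rw [EuclideanSpace.norm_sq_eq]
      simp
    simp only [hn]
    push_cast
    rw [← Finset.mul_sum]
    congr 1
    rw [Finset.mul_sum, ← Finset.sum_neg_distrib, Finset.sum_mul]
    refine Finset.sum_congr rfl fun j _ => ?_
    ring_nf
    rw [Complex.I_sq]
    ring
  · intro j _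
    have hi : Integrable (fun ξ : E d => (((2 * Real.pi * ξ j : ℝ) : ℂ) * I) *
        ((((2 * Real.pi * ξ j : ℝ) : ℂ) * I) * φ ξ)) :=
      integrable_coord (integrable_coord h0 h1 j) (integrable_coord_mom h0 h2 j) j
    refine hi.norm.mono' ?_ ?_
    · refine AEStronglyMeasurable.mul ?_ hi.aestronglyMeasurable
      refine Continuous.aestronglyMeasurable ?_
      fun_prop
    · refine Filter.Eventually.of_forall fun ξ => ?_
      rw [norm_mul, Complex.norm_exp_ofReal_mul_I, one_mul]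

end Vale.Agent.P139.H741
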